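import Vale.Agent.P072.Defs

/-!
# Sign of a linear functional along a weakly reversible mass-action field
-/

noncomputable section

open Finset Real
open scoped BigOperators

namespace Vale.Agent.P072

variable {d : ℕ}

/-- Pairing of a real vector with a complex. -/
def lp (n : Fin d → ℝ) (y : Fin d → ℕ) : ℝ := ∑ i, n i * (y i : ℝ)

/-- The complexes of a network. -/
def complexes (R : Finset ((Fin d → ℕ) × (Fin d → ℕ))) : Finset (Fin d → ℕ) :=
  R.image Prod.fst ∪ R.image Prod.snd

lemma fst_mem_complexes {R : Finset ((Fin d → ℕ) × (Fin d → ℕ))} {r} (h : r ∈ R) :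
    r.1 ∈ complexes R := Finset.mem_union_left _ (Finset.mem_image_of_mem _ h)

lemma snd_mem_complexes {R : Finset ((Fin d → ℕ) × (Fin d → ℕ))} {r} (h : r ∈ R) :
    r.2 ∈ complexes R := Finset.mem_union_right _ (Finset.mem_image_of_mem _ h)

lemma monom_eq_exp {x : Fin d → ℝ} (hx : ∀ i, 0 < x i) (y : Fin d → ℕ) :
    monom x y = exp (lp (fun i => log (x i)) y) := by
  unfold monom lp
  rw [exp_sum]
  refine Finset.prod_congr rfl fun i _ => ?_
  rw [mul_comm, exp_nat_mul, exp_log (hx i)]

/-- A linear functional applied to the vector field. -/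
lemma pair_massAction (R : Finset ((Fin d → ℕ) × (Fin d → ℕ)))
    (k : ((Fin d → ℕ) × (Fin d → ℕ)) → ℝ) (x n : Fin d → ℝ) :
    ∑ i, n i * massAction R k x i
      = ∑ r ∈ R, k r * monom x r.1 * (lp n r.2 - lp n r.1) := by
  have e : ∀ r : (Fin d → ℕ) × (Fin d → ℕ), lp n r.2 - lp n r.1 = ∑ i, n i * reactionVec r i := by
    intro r
    unfold lp reactionVec
    rw [← Finset.sum_sub_distrib]
    exact Finset.sum_congr rfl fun i _ => by ring
  simp only [massAction, Finset.sum_apply, Pi.smul_apply, smul_eq_mul, Finset.mul_sum, e]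
  rw [Finset.sum_comm]
  refine Finset.sum_congr rfl fun r _ => Finset.sum_congr rfl fun i _ => ?_
  ring

lemma crossing {R : Finset ((Fin d → ℕ) × (Fin d → ℕ))} (g : (Fin d → ℕ) → ℝ) (L : ℝ)
    {u b : Fin d → ℕ} (h : Relation.ReflTransGen (fun a b : Fin d → ℕ => (a, b) ∈ R) u b)
    (hu : L ≤ g u) (hb : g b < L) :
    ∃ w w', (w, w') ∈ R ∧ L ≤ g w ∧ g w' < L ∧
      Relation.ReflTransGen (fun a b : Fin d → ℕ => (a, b) ∈ R) w' b := by
  induction h using Relation.ReflTransGen.head_induction_on with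
  | refl => linarith
  | @head a c hac hcb ih =>
    rcases lt_or_ge (g c) L with e | e
    · exact ⟨a, c, hac, hu, e, hcb⟩
    · exact ih e

/-- Total descent of the edges whose source lies above `a`. -/
def descent (R : Finset ((Fin d → ℕ) × (Fin d → ℕ))) (g : (Fin d → ℕ) → ℝ) (a : ℝ) : ℝ :=
  ∑ r ∈ R, if a < g r.1 then max 0 (g r.1 - g r.2) else 0

lemma descent_nonneg (R : Finset ((Fin d → ℕ) × (Fin d → ℕ))) (g : (Fin d → ℕ) → ℝ) (a : ℝ) :
    0 ≤ descent R g a :=
  Finset.sum_nonneg fun r _ => by split_ifs <;> simp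

lemma path_bound {R : Finset ((Fin d → ℕ) × (Fin d → ℕ))} (g : (Fin d → ℕ) → ℝ) (b : Fin d → ℕ) :
    ∀ m : ℕ, ∀ u, ((complexes R).filter fun c => g c < g u).card ≤ m → g b < g u →
      Relation.ReflTransGen (fun a b : Fin d → ℕ => (a, b) ∈ R) u b →
      g u - g b ≤ m * descent R g (g b) := by
  intro m
  induction m using Nat.strong_induction_on with
  | _ m ih =>
    intro u hcard hlt hpath
    obtain ⟨w, w', hedge, hw, hw', hrest⟩ := crossing g (g u) hpath le_rfl hlt
    have hwC : w' ∈ (complexes R).filter fun c => g c < g u :=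
      Finset.mem_filter.2 ⟨snd_mem_complexes hedge, hw'⟩
    have hstep : g u - g w' ≤ descent R g (g b) := by
      refine le_trans ?_ (Finset.single_le_sum
        (f := fun r => if g b < g r.1 then max 0 (g r.1 - g r.2) else 0)
        (fun r _ => by split_ifs <;> simp) hedge)
      simp only
      rw [if_pos (by linarith)]
      exact le_trans (by linarith) (le_max_right _ _)
    have hD := descent_nonneg R g (g b)
    have hm1 : 1 ≤ m := le_trans (Finset.card_pos.2 ⟨w', hwC⟩) hcard
    rcases le_or_gt (g w') (g b) with e | e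
    · have h1 : (1 : ℝ) ≤ (m : ℝ) := by exact_mod_cast hm1
      nlinarith
    · have hlt' : ((complexes R).filter fun c => g c < g w').card
          < ((complexes R).filter fun c => g c < g u).card := by
        refine Finset.card_lt_card ((Finset.ssubset_iff_of_subset ?_).2 ⟨w', hwC, by simp⟩)
        intro c hc
        rw [Finset.mem_filter] at hc ⊢
        exact ⟨hc.1, lt_trans hc.2 hw'⟩
      have := ih (m - 1) (by omega) w' (by omega) e hrest
      rw [Nat.cast_sub hm1, Nat.cast_one] at this
      nlinarith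

/-- If the ordering of the complexes by `n` is confirmed by `v` with margin `T`, the field
decreases `n`. -/
theorem field_neg {R : Finset ((Fin d → ℕ) × (Fin d → ℕ))} (hR : WeaklyReversible R)
    (n v : Fin d → ℝ) (k : ((Fin d → ℕ) × (Fin d → ℕ)) → ℝ) {lo hi T : ℝ}
    (hk : ∀ r ∈ R, lo ≤ k r ∧ k r ≤ hi) (hlo : 0 < lo)
    (hT : hi * (complexes R).card * R.card * exp (-T) < lo)
    (hsep : ∀ a ∈ complexes R, ∀ b ∈ complexes R, lp n a < lp n b → T ≤ lp v b - lp v a)
    (hne : ∃ r ∈ R, lp n r.1 ≠ lp n r.2) :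
    ∑ r ∈ R, k r * exp (lp v r.1) * (lp n r.2 - lp n r.1) < 0 := by
  set g := lp n with hg
  set e : ((Fin d → ℕ) × (Fin d → ℕ)) → ℝ := fun r => exp (lp v r.1) with he
  set D := ∑ r ∈ R, e r * max 0 (g r.1 - g r.2) with hDdef
  have hterm : ∀ r ∈ R, 0 ≤ e r * max 0 (g r.1 - g r.2) :=
    fun r _ => mul_nonneg (exp_pos _).le (le_max_left _ _)
  have hD : 0 ≤ D := Finset.sum_nonneg hterm
  obtain ⟨r0, hr0, hne0⟩ := hne
  have hhi : 0 < hi := lt_of_lt_of_le hlo (le_trans (hk r0 hr0).1 (hk r0 hr0).2)
  have hDpos : 0 < D := by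
    obtain ⟨r, hr, hlt⟩ : ∃ r ∈ R, g r.2 < g r.1 := by
      rcases lt_or_gt_of_ne hne0 with h | h
      · obtain ⟨w, w', hedge, hw, hw', -⟩ := crossing g (g r0.2) (hR r0 hr0) le_rfl h
        exact ⟨(w, w'), hedge, lt_of_lt_of_le hw' hw⟩
      · exact ⟨r0, hr0, h⟩
    refine lt_of_lt_of_le ?_ (Finset.single_le_sum hterm hr)
    exact mul_pos (exp_pos _) (lt_of_lt_of_le (by linarith) (le_max_right _ _))
  have hpos : ∀ r ∈ R, g r.1 < g r.2 →
      e r * (g r.2 - g r.1) ≤ (complexes R).card * exp (-T) * D := by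
    intro r hr hlt
    have h1 := path_bound g r.1 (complexes R).card r.2 (Finset.card_filter_le _ _) hlt (hR r hr)
    have h2 : e r * descent R g (g r.1) ≤ exp (-T) * D := by
      rw [descent, hDdef, Finset.mul_sum, Finset.mul_sum]
      refine Finset.sum_le_sum fun q hq => ?_
      split_ifs with hgt
      · rw [← mul_assoc]
        refine mul_le_mul_of_nonneg_right ?_ (le_max_left _ _)
        simp only [he]
        rw [← exp_add]
        refine exp_le_exp.2 ?_
        have := hsep r.1 (fst_mem_complexes hr) q.1 (fst_mem_complexes hq) hgt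
        linarith
      · rw [mul_zero]
        exact mul_nonneg (exp_pos _).le (hterm q hq)
    have h3 := mul_le_mul_of_nonneg_left h1 (exp_pos (lp v r.1)).le
    have h4 : (0 : ℝ) ≤ (complexes R).card := Nat.cast_nonneg _
    calc e r * (g r.2 - g r.1)
        ≤ (complexes R).card * (e r * descent R g (g r.1)) := by
          simp only [he] at h3 ⊢; linarith
      _ ≤ (complexes R).card * (exp (-T) * D) := mul_le_mul_of_nonneg_left h2 h4
      _ = _ := by ring
  have hB : 0 ≤ hi * ((complexes R).card * exp (-T) * D) := by positivity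
  have hkey : ∀ r ∈ R, k r * e r * (g r.2 - g r.1)
      ≤ hi * ((complexes R).card * exp (-T) * D) - lo * (e r * max 0 (g r.1 - g r.2)) := by
    intro r hr
    rcases le_or_gt (g r.2) (g r.1) with h | h
    · rw [max_eq_right (by linarith)]
      have h5 : 0 ≤ (k r - lo) * (e r * (g r.1 - g r.2)) :=
        mul_nonneg (by linarith [(hk r hr).1]) (mul_nonneg (exp_pos _).le (by linarith))
      nlinarith
    · rw [max_eq_left (by linarith), mul_zero, mul_zero, sub_zero, mul_assoc]
      exact le_trans (mul_le_mul_of_nonneg_right (hk r hr).2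
        (mul_nonneg (exp_pos _).le (by linarith))) (mul_le_mul_of_nonneg_left (hpos r hr h) hhi.le)
  have hsum := Finset.sum_le_sum hkey
  rw [Finset.sum_sub_distrib, Finset.sum_const, nsmul_eq_mul, ← Finset.mul_sum] at hsum
  simp only [he] at hsum hDdef
  have h6 : (hi * (complexes R).card * R.card * exp (-T)) * D < lo * D :=
    mul_lt_mul_of_pos_right hT hDpos
  rw [← hDdef] at hsum
  linarith

end Vale.Agent.P072
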