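import Vale.Agent.P072.Sup
import Vale.Agent.P072.Network

/-!
# The two barrier families
-/

noncomputable section

open Finset Real
open scoped BigOperators

namespace Vale.Agent.P072

variable {d : ℕ}

/-- Orthogonal to every reaction vector. -/
def Annih (R : Finset ((Fin d → ℕ) × (Fin d → ℕ))) (n : Fin d → ℝ) : Prop :=
  ∀ r ∈ R, lp n r.1 = lp n r.2

/-- Same conservation laws as `c`. -/
def Cons (R : Finset ((Fin d → ℕ) × (Fin d → ℕ))) (c x : Fin d → ℝ) : Prop :=
  ∀ n, Annih R n → ∑ i, n i * (x i - c i) = 0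

/-- Rates in the window `[lo, hi]`. -/
def Rates (R : Finset ((Fin d → ℕ) × (Fin d → ℕ))) (lo hi : ℝ)
    (k : ((Fin d → ℕ) × (Fin d → ℕ)) → ℝ) : Prop :=
  ∀ r ∈ R, lo ≤ k r ∧ k r ≤ hi

/-- The functional `n` strictly decreases at `y` for all rates in the window. -/
def DecAt (R : Finset ((Fin d → ℕ) × (Fin d → ℕ))) (lo hi : ℝ) (n y : Fin d → ℝ) : Prop :=
  ∀ k, Rates R lo hi k → ∑ i, n i * massAction R k y i < 0

/-- Largest stoichiometric coefficient. -/
def maxCoeff (R : Finset ((Fin d → ℕ) × (Fin d → ℕ))) : ℕ :=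
  (complexes R).sup fun y => (univ : Finset (Fin d)).sup y

lemma abs_sub_le_maxCoeff {R : Finset ((Fin d → ℕ) × (Fin d → ℕ))} {a b : Fin d → ℕ}
    (ha : a ∈ complexes R) (hb : b ∈ complexes R) (i : Fin d) :
    |((b i : ℤ) - (a i : ℤ))| ≤ (maxCoeff R : ℤ) := by
  have h : ∀ y ∈ complexes R, y i ≤ maxCoeff R := fun y hy =>
    le_trans (Finset.le_sup (f := y) (Finset.mem_univ i))
      (Finset.le_sup (f := fun y => (univ : Finset (Fin d)).sup y) hy)
  have h1 := h a ha
  have h2 := h b hb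
  rw [abs_le]
  omega

lemma net_threshold (R : Finset ((Fin d → ℕ) × (Fin d → ℕ))) {lo : ℝ} (hlo : 0 < lo) (hi : ℝ) :
    ∃ T0, 0 ≤ T0 ∧ ∀ T, T0 ≤ T → hi * (complexes R).card * R.card * exp (-T) < lo := by
  refine ⟨|hi * (complexes R).card * R.card| / lo, div_nonneg (abs_nonneg _) hlo.le,
    fun T hT => ?_⟩
  have hT0 : 0 ≤ T := le_trans (div_nonneg (abs_nonneg _) hlo.le) hT
  have h1 : |hi * (complexes R).card * R.card| ≤ T * lo := (div_le_iff₀ hlo).1 hT
  have h2 := add_one_le_exp T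
  have h3 : exp T * exp (-T) = 1 := by rw [← exp_add]; simp
  have h4 : hi * (complexes R).card * R.card < lo * exp T := by
    nlinarith [le_abs_self (hi * (complexes R).card * R.card)]
  calc hi * (complexes R).card * R.card * exp (-T)
      < lo * exp T * exp (-T) := mul_lt_mul_of_pos_right h4 (exp_pos _)
    _ = lo := by rw [mul_assoc, h3, mul_one]

lemma decAt_of_sign {R : Finset ((Fin d → ℕ) × (Fin d → ℕ))} (hR : WeaklyReversible R)
    {lo hi T : ℝ} (hlo : 0 < lo)
    (hT : hi * (complexes R).card * R.card * exp (-T) < lo) {y : Fin d → ℝ} (hy : ∀ i, 0 < y i)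
    (n : Fin d → ℝ)
    (hsep : ∀ a ∈ complexes R, ∀ b ∈ complexes R, lp n a < lp n b →
      T ≤ lp (fun i => log (y i)) b - lp (fun i => log (y i)) a)
    (hne : ¬ Annih R n) : DecAt R lo hi n y := by
  intro k hk
  rw [pair_massAction]
  have hne' : ∃ r ∈ R, lp n r.1 ≠ lp n r.2 := by
    simpa [Annih] using hne
  have := field_neg hR n (fun i => log (y i)) k hk hlo hT hsep hne'
  simpa [monom_eq_exp hy] using this

lemma val_shift {k : ℕ} (B0 : ℕ) (T : ℝ) (y z : Fin k → ℝ) (s : Fin k → Fin k)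
    (p : Fin k → Bool) (n : Fin k → ℝ) :
    val B0 T y s p n + ∑ i, n i * (z i - y i) = val B0 T z s p n := by
  unfold val
  have : ∑ i, n i * (z i - y i) = (∑ i, z i * n i) - ∑ i, y i * n i := by
    rw [← Finset.sum_sub_distrib]; exact Finset.sum_congr rfl fun i _ => by ring
  linarith

/-! ## Boundedness potential -/

lemma coord_term {c C y n : ℝ} (hc : 0 < c) (hy : 0 < y) (h : |log y - n| ≤ C) :
    -((|log c| + C) * (c + exp C)) ≤ n * (y - c) ∧
    ∀ S, 0 ≤ S → C + |log c| + log 2 + 2 * S / c + 1 < |log y| → S < n * (y - c) := by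
  have hC : 0 ≤ C := le_trans (abs_nonneg _) h
  rw [abs_le] at h
  have hl : 0 < log 2 := log_pos (by norm_num)
  have hlc : 0 ≤ |log c| := abs_nonneg _
  constructor
  · rcases le_or_gt 0 n with hn | hn
    · rcases le_or_gt c y with e | e
      · have h1 : 0 ≤ (|log c| + C) * (c + exp C) := by positivity
        nlinarith
      · have h1 := log_lt_log hy e
        have h2 : n ≤ |log c| + C := by linarith [le_abs_self (log c)]
        have h3 : n * c ≤ (|log c| + C) * c := mul_le_mul_of_nonneg_right h2 hc.le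
        have h4 : 0 ≤ (|log c| + C) * exp C := by positivity
        nlinarith [mul_nonneg hn hy.le]
    · rcases le_or_gt y c with e | e
      · have h1 : 0 ≤ (|log c| + C) * (c + exp C) := by positivity
        nlinarith
      · have h1 := log_lt_log hc e
        have h2 : -n ≤ |log c| + C := by linarith [neg_abs_le (log c)]
        have h3 : y ≤ exp C := by
          rw [← exp_log hy]; exact exp_le_exp.2 (by linarith)
        have h4 : -n * y ≤ (|log c| + C) * exp C := mul_le_mul h2 h3 hy.le (by linarith)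
        have h5 : 0 ≤ (|log c| + C) * c := by positivity
        nlinarith [mul_nonneg (neg_nonneg.2 hn.le) hc.le]
  · intro S hS hbig
    have hS' : 0 ≤ 2 * S / c := by positivity
    have hkey : 2 * S / c * c = 2 * S := div_mul_cancel₀ _ hc.ne'
    rcases le_or_gt 0 (log y) with e | e
    · rw [abs_of_nonneg e] at hbig
      have h1 : 2 * c ≤ y := by
        rw [← exp_log hy, ← exp_log (show 0 < 2 * c by linarith), exp_le_exp,
          log_mul (by norm_num) hc.ne']
        linarith [le_abs_self (log c)]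
      have h2 : 2 * S / c + 1 ≤ n := by linarith
      have h3 : (2 * S / c + 1) * c ≤ n * (y - c) := mul_le_mul h2 (by linarith) hc.le (by linarith)
      nlinarith
    · rw [abs_of_neg e] at hbig
      have h1 : 2 * y ≤ c := by
        rw [← exp_log hc, ← exp_log (show 0 < 2 * y by linarith), exp_le_exp,
          log_mul (by norm_num) hy.ne']
        linarith [neg_abs_le (log c)]
      have h2 : 2 * S / c + 1 ≤ -n := by linarith
      have h3 : (2 * S / c + 1) * (c / 2) ≤ -n * (c - y) :=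
        mul_le_mul h2 (by linarith) (by linarith) (by linarith)
      nlinarith

lemma hmax_nonneg (k B0 : ℕ) {T : ℝ} (hT : 0 ≤ T) : 0 ≤ hmax k B0 T :=
  mul_nonneg hT (pow_nonneg (by linarith [one_le_kc k B0]) _)

theorem stage_one {R : Finset ((Fin d → ℕ) × (Fin d → ℕ))} (hR : WeaklyReversible R)
    {lo : ℝ} (hlo : 0 < lo) (hi : ℝ) {c : Fin d → ℝ} (hc : ∀ i, 0 < c i) :
    ∃ (U : (Fin d → ℝ) → ℝ) (R0 : ℝ),
      ContinuousOn U {x | ∀ i, 0 < x i} ∧
      (∀ L, ∃ M, 1 ≤ M ∧ ∀ x, (∀ i, 0 < x i) → U x ≤ L → ∀ i, x i ≤ M) ∧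
      ∀ y, (∀ i, 0 < y i) → Cons R c y → R0 < U y →
        ∃ n, (∀ z, (∀ i, 0 < z i) → U y + ∑ i, n i * (z i - y i) ≤ U z) ∧ DecAt R lo hi n y := by
  obtain ⟨T0, hT00, hT0⟩ := net_threshold R hlo hi
  set B0 := maxCoeff R
  set T := T0 + |tzero d B0| + 1 with hTdef
  have hT1 : tzero d B0 ≤ T := by linarith [le_abs_self (tzero d B0)]
  have hTpos : 0 < T := by linarith [abs_nonneg (tzero d B0)]
  have hnet := hT0 T (by linarith [abs_nonneg (tzero d B0)])
  set C := 2 * hmax d B0 T with hCdef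
  have hH0 := hmax_nonneg d B0 hTpos.le
  have hC0 : 0 ≤ C := by linarith
  set S := ∑ i, (|log (c i)| + C) * (c i + exp C) with hSdef
  have hSterm : ∀ i : Fin d, 0 ≤ (|log (c i)| + C) * (c i + exp C) := fun i =>
    mul_nonneg (by positivity) (by linarith [hc i, exp_pos C])
  have hS : 0 ≤ S := Finset.sum_nonneg fun i _ => hSterm i
  set M0 := ∑ i, (C + |log (c i)| + log 2 + 2 * S / c i + 1) with hM0def
  set box := Set.pi (Set.univ : Set (Fin d)) fun _ => Set.Icc (exp (-M0)) (exp M0)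
  have hboxpos : box ⊆ {x | ∀ i, 0 < x i} := fun x hx i =>
    lt_of_lt_of_le (exp_pos _) (hx i trivial).1
  have hcont : ContinuousOn (fun x => pot B0 false T x) {x : Fin d → ℝ | ∀ i, 0 < x i} :=
    (pot_continuousOn d B0 false).comp (continuous_const.prodMk continuous_id).continuousOn
      fun x hx => ⟨hTpos, hx⟩
  obtain ⟨R0, hR0⟩ :=
    (isCompact_univ_pi fun _ => isCompact_Icc).bddAbove_image (hcont.mono hboxpos)
  refine ⟨fun x => pot B0 false T x, R0, hcont, ?_, ?_⟩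
  · intro L
    set μ := hmax d B0 T + 1 with hμ
    have hμ0 : 0 < μ := by linarith
    refine ⟨|L + d * exp μ| / μ + 1, by
      linarith [div_nonneg (abs_nonneg (L + d * exp μ)) hμ0.le], fun x hx hle i => ?_⟩
    have h1 := le_pot hTpos hx (adm_const (B0 := B0) (cap := false) hTpos.le
      (μ := μ) (by rw [abs_of_pos hμ0]; linarith) (by simp))
    have h2 := val_const_ge (B0 := B0) (μ := μ) hTpos.le x
    have h3 : x i * μ ≤ |L + d * exp μ| := by
      have := Finset.single_le_sum (f := x) (fun j _ => (hx j).le) (Finset.mem_univ i)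
      nlinarith [le_abs_self (L + d * exp μ)]
    have := (le_div_iff₀ hμ0).2 h3
    linarith
  · intro y hy hcons hlt
    obtain ⟨s, p, n, hb⟩ := exists_best B0 false hTpos hy
    refine ⟨n, fun z hz => ?_, ?_⟩
    · dsimp only
      rw [pot_eq hb, val_shift]
      exact le_pot hTpos hz hb.1
    · refine decAt_of_sign hR hlo hnet hy n ?_ ?_
      · intro a ha b hb' hab
        have e : ∀ m : Fin d → ℝ, dot m (fun i => (b i : ℤ) - (a i : ℤ)) = lp m b - lp m a := by
          intro m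
          unfold dot lp
          rw [← Finset.sum_sub_distrib]
          exact Finset.sum_congr rfl fun i _ => by push_cast; ring
        have := best_sign hT1 hy (by simp) hb (z := fun i => (b i : ℤ) - (a i : ℤ))
          (fun i => abs_sub_le_maxCoeff ha hb' i) (by rw [e]; linarith)
        rwa [e] at this
      · intro hann
        have hclose : ∀ i, |log (y i) - n i| ≤ C := fun i =>
          le_trans (best_close hT1 hy (by simp) hb i)
            (by linarith [gam_le_hmax B0 hTpos.le p])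
        have hsum := hcons n hann
        refine not_le.2 hlt (hR0 ⟨y, fun i _ => ?_, rfl⟩)
        have hMi : |log (y i)| ≤ M0 := by
          by_contra hcon
          rw [not_le] at hcon
          have h1 : C + |log (c i)| + log 2 + 2 * S / c i + 1 ≤ M0 :=
            Finset.single_le_sum (f := fun j => C + |log (c j)| + log 2 + 2 * S / c j + 1)
              (fun j _ => by
                have := hc j
                have : 0 < log 2 := log_pos (by norm_num)
                positivity) (Finset.mem_univ i)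
          have h2 := (coord_term (hc i) (hy i) (hclose i)).2 S hS (lt_of_le_of_lt h1 hcon)
          rw [← Finset.add_sum_erase _ _ (Finset.mem_univ i)] at hsum
          have h3 : ∑ j ∈ univ.erase i, -((|log (c j)| + C) * (c j + exp C))
              ≤ ∑ j ∈ univ.erase i, n j * (y j - c j) :=
            Finset.sum_le_sum fun j _ => (coord_term (hc j) (hy j) (hclose j)).1
          rw [Finset.sum_neg_distrib] at h3
          have h4 : ∑ j ∈ univ.erase i, (|log (c j)| + C) * (c j + exp C) ≤ S :=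
            Finset.sum_le_sum_of_subset_of_nonneg (Finset.erase_subset _ _)
              fun j _ _ => hSterm j
          linarith
        rw [abs_le] at hMi
        refine ⟨?_, ?_⟩
        · rw [← exp_log (hy i)]; exact exp_le_exp.2 hMi.1
        · rw [← exp_log (hy i)]; exact exp_le_exp.2 hMi.2

/-! ## Persistence potential -/

/-- The coordinates of `x / M` inside `I`. -/
def restr (M : ℝ) (I : Finset (Fin d)) (x : Fin d → ℝ) : Fin I.card → ℝ :=
  fun j => x (I.orderEmbOfFin rfl j) / M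

/-- One constraint of the persistence family. -/
def bar1 (B0 : ℕ) (κ θ M r : ℝ) (x : Fin d → ℝ) (I : Finset (Fin d)) : ℝ :=
  if I.Nonempty then
    pot B0 true (κ * θ ^ (I.card + 1) * r) (restr M I x) + exp (-(θ ^ I.card * r))
  else -1

/-- The persistence barrier. -/
def bar (B0 : ℕ) (κ θ M r : ℝ) (x : Fin d → ℝ) : ℝ :=
  (univ : Finset (Finset (Fin d))).sup' Finset.univ_nonempty (bar1 B0 κ θ M r x)

lemma bar_continuousOn (B0 : ℕ) {κ θ M : ℝ} (hκ : 0 < κ) (hθ : 0 < θ) (hM : 0 < M) :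
    ContinuousOn (fun w : ℝ × (Fin d → ℝ) => bar B0 κ θ M w.1 w.2)
      {w | 0 < w.1 ∧ ∀ i, 0 < w.2 i} := by
  refine ContinuousOn.finset_sup'_apply _ fun I _ => ?_
  unfold bar1
  by_cases hI : I.Nonempty
  · simp only [if_pos hI]
    refine ContinuousOn.add ((pot_continuousOn _ B0 true).comp
      (f := fun w : ℝ × (Fin d → ℝ) => (κ * θ ^ (I.card + 1) * w.1, restr M I w.2)) ?_ ?_)
      (by fun_prop)
    · unfold restr; fun_prop
    · intro w hw
      exact ⟨mul_pos (mul_pos hκ (pow_pos hθ _)) hw.1, fun j => div_pos (hw.2 _) hM⟩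
  · simp only [if_neg hI]; exact continuousOn_const

lemma term_nonpos {ξ n τ : ℝ} (hξ : 0 ≤ ξ) (hn : n ≤ 0) : ξ * n - exp (n - τ) ≤ 0 := by
  nlinarith [exp_pos (n - τ), mul_nonpos_of_nonneg_of_nonpos hξ hn]

lemma val_split {k : ℕ} (B0 : ℕ) (T : ℝ) (x : Fin k → ℝ) {s : Fin k → Fin k}
    (hs : Function.Bijective s) (p : Fin k → Bool) (n : Fin k → ℝ) :
    val B0 T x s p n = ∑ i, (x (s i) * n (s i) - exp (n (s i) - shift B0 T p i)) := by
  unfold val cost
  rw [Finset.sum_sub_distrib, hs.sum_comp (fun i => x i * n i)]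

lemma inside_bound {k : ℕ} {B0 : ℕ} {T KK P : ℝ} (hT : 0 < T)
    (hhm : hmax k B0 T ≤ T * KK) (hP : 10 ≤ P) (hs : 5 * KK * T = P / 2) {ξ : Fin k → ℝ}
    (hξ : ∀ j, 0 < ξ j) {s : Fin k → Fin k} {p : Fin k → Bool} {n : Fin k → ℝ}
    (hb : IsBest B0 true T ξ s p n) (hv : val B0 T ξ s p n = -exp (-P)) (j : Fin k) :
    n j ≤ -1 ∧ ξ j ≤ exp (-P) := by
  have hneg := hb.1.capped rfl
  obtain ⟨i, rfl⟩ := hb.1.bij.2 j
  rw [val_split B0 T ξ hb.1.bij, ← Finset.add_sum_erase _ _ (Finset.mem_univ i)] at hv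
  have h3 : ∑ l ∈ univ.erase i, (ξ (s l) * n (s l) - exp (n (s l) - shift B0 T p l)) ≤ 0 :=
    Finset.sum_nonpos fun l _ => term_nonpos (hξ _).le (hneg _)
  have h4 := mul_nonpos_of_nonneg_of_nonpos (hξ (s i)).le (hneg (s i))
  have h5 : exp (n (s i) - shift B0 T p i) ≤ exp (-P) := by linarith
  have h6 := exp_le_exp.1 h5
  have h7 : shift B0 T p i ≤ T * KK :=
    le_trans (le_trans (shift_le_gam B0 hT.le p i) (gam_le_hmax B0 hT.le p)) hhm
  have hn1 : n (s i) ≤ -1 := by linarith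
  refine ⟨hn1, ?_⟩
  have := mul_le_mul_of_nonneg_left hn1 (hξ (s i)).le
  linarith [exp_pos (n (s i) - shift B0 T p i)]

lemma outside_arith {q w D : ℝ} (hq : 10 ≤ q) (hD : 0 ≤ D) (hqD : 12 * D ≤ q)
    (h : exp (-q) ≤ 2 * q * w + 3 * q * D * exp (-(2 * q))) : exp (-(2 * q)) ≤ w := by
  obtain ⟨E, hE⟩ : ∃ E, E = exp (-q) := ⟨_, rfl⟩
  have hE2 : exp (-(2 * q)) = E * E := by rw [hE, ← exp_add]; ring_nf
  have hE0 : 0 < E := hE ▸ exp_pos _
  rw [hE2, ← hE] at h
  rw [hE2]
  have hEq : E * (q ^ 2 / 2) ≤ 1 := by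
    have h9 := quadratic_le_exp_of_nonneg (show 0 ≤ q by linarith)
    have h10 : E * exp q = 1 := by rw [hE, ← exp_add]; simp
    have := mul_le_mul_of_nonneg_left (show q ^ 2 / 2 ≤ exp q by linarith) hE0.le
    linarith
  have h14 : 3 * q * D * E ≤ 1 / 2 := by
    have := mul_le_mul_of_nonneg_left hqD (show 0 ≤ q * E by positivity)
    linarith
  have h15 := mul_le_mul_of_nonneg_right h14 hE0.le
  have h16 : E * E * (4 * q) ≤ E := by
    have := mul_le_mul_of_nonneg_left (show 8 ≤ q by linarith) (show 0 ≤ q * E by positivity)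
    have h17 : E * (4 * q) ≤ 1 := by linarith
    have := mul_le_mul_of_nonneg_left h17 hE0.le
    linarith
  have : 4 * q * (E * E) ≤ 4 * q * w := by linarith
  exact le_of_mul_le_mul_left this (by linarith)

lemma const_lower {B0 : ℕ} {T M q S ρ : ℝ} (hT : 0 < T) (hM : 0 < M) {y : Fin d → ℝ}
    (hy : ∀ i, 0 < y i) (J : Finset (Fin d)) (hq : 1 ≤ q) (hhm : hmax J.card B0 T ≤ 2 * q)
    (hS : ∑ l ∈ J, y l / M ≤ S) (hJ : pot B0 true T (restr M J y) + ρ ≤ 0) :
    ρ ≤ 2 * q * S + d * exp (-(2 * q)) := by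
  have hpotJ := le_pot hT (x := restr M J y) (fun i => div_pos (hy _) hM)
    (adm_const (B0 := B0) (cap := true) (μ := -(2 * q)) hT.le
      (by rw [abs_neg, abs_of_nonneg (by linarith)]; exact hhm) (fun _ => by linarith))
  have hvc := val_const_ge (B0 := B0) (μ := -(2 * q)) hT.le (restr M J y)
  have e1 : ∑ i, restr M J y i = ∑ i ∈ J, y i / M := by
    conv_rhs => rw [← Finset.map_orderEmbOfFin_univ J rfl, Finset.sum_map]
    rfl
  rw [e1] at hvc
  have h7 : (J.card : ℝ) * exp (-(2 * q)) ≤ d * exp (-(2 * q)) :=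
    mul_le_mul_of_nonneg_right
      (by exact_mod_cast le_trans (Finset.card_le_univ _) (by simp)) (exp_pos _).le
  have h8 := mul_le_mul_of_nonneg_left hS (show 0 ≤ 2 * q by linarith)
  linarith

lemma sign_outside {B : ℝ} {I : Finset (Fin d)} {M q : ℝ} (hM : 1 ≤ M) (hq : 0 ≤ q)
    {y : Fin d → ℝ} (hy : ∀ i, 0 < y i) (hyM : ∀ i, y i ≤ M)
    (hout : ∀ i, i ∉ I → -(2 * q) ≤ log (y i / M)) (z : Fin d → ℝ)
    (hz : ∀ i, |z i| ≤ B) (hB : 0 ≤ B) {W : ℝ}
    (hW : W ≤ ∑ i ∈ I, log (y i / M) * z i) :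
    W - d * (2 * q * B) - d * B * log M ≤ ∑ i, log (y i) * z i := by
  have hM0 : 0 < M := by linarith
  have hlM : 0 ≤ log M := log_nonneg hM
  have e : ∀ i, log (y i) * z i = log (y i / M) * z i + log M * z i := by
    intro i; rw [log_div (hy _).ne' hM0.ne']; ring
  simp only [e]
  rw [Finset.sum_add_distrib, ← Finset.mul_sum,
    ← Finset.sum_add_sum_compl I (fun i => log (y i / M) * z i)]
  have h4 : ∀ i ∈ Iᶜ, -(2 * q * B) ≤ log (y i / M) * z i := by
    intro i hi
    rw [Finset.mem_compl] at hi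
    have h6 : log (y i / M) ≤ 0 :=
      log_nonpos (div_pos (hy _) hM0).le ((div_le_one hM0).2 (hyM _))
    have h7 : |log (y i / M) * z i| ≤ 2 * q * B := by
      rw [abs_mul]
      exact mul_le_mul (by rw [abs_le]; exact ⟨hout i hi, by linarith⟩) (hz i)
        (abs_nonneg _) (by linarith)
    exact (abs_le.1 h7).1
  have h9 := Finset.card_nsmul_le_sum _ _ _ h4
  rw [nsmul_eq_mul] at h9
  have h12 : ((Iᶜ).card : ℝ) * (2 * q * B) ≤ d * (2 * q * B) :=
    mul_le_mul_of_nonneg_right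
      (by exact_mod_cast le_trans (Finset.card_le_univ _) (by simp))
      (mul_nonneg (by linarith) hB)
  have h11 : |∑ i, z i| ≤ d * B := by
    refine le_trans (Finset.abs_sum_le_sum_abs _ _) ?_
    refine le_trans (Finset.sum_le_card_nsmul _ _ _ fun i _ => hz i) ?_
    simp
  have := mul_le_mul_of_nonneg_left (abs_le.1 h11).1 hlM
  linarith

/-- The constants of the persistence family. -/
structure BarPar (R : Finset ((Fin d → ℕ) × (Fin d → ℕ))) (lo hi : ℝ) (c : Fin d → ℝ)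
    (B0 : ℕ) (κ θ M KK Q r0 : ℝ) : Prop where
  wr : WeaklyReversible R
  lo0 : 0 < lo
  c0 : ∀ i, 0 < c i
  hB0 : B0 = maxCoeff R
  hκ : κ = 4 * (d : ℝ) * B0 + 2
  θ0 : 0 < θ
  θhalf : θ ≤ 1 / 2
  KK0 : 0 ≤ KK
  hθK : 5 * KK * κ * θ = 1 / 2
  hhm : ∀ k, k ≤ d → ∀ T, 0 ≤ T → hmax k B0 T ≤ T * KK
  hM : 1 ≤ M
  hQ : 10 ≤ Q
  hQd : 12 * (d : ℝ) ≤ Q
  hQt : ∀ k, k ≤ d → tzero k B0 ≤ Q
  hQnet : ∀ T, Q - d * B0 * log M ≤ T → hi * (complexes R).card * R.card * exp (-T) < lo
  hQc : ∀ i, log M - log (c i) < Q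
  r00 : 0 < r0
  hq : ∀ r, r0 ≤ r → ∀ m, m ≤ d + 1 → Q ≤ θ ^ m * r

namespace BarPar

variable {R : Finset ((Fin d → ℕ) × (Fin d → ℕ))} {lo hi : ℝ} {c : Fin d → ℝ}
  {B0 : ℕ} {κ θ M KK Q r0 : ℝ}

lemma κ_pos (P : BarPar R lo hi c B0 κ θ M KK Q r0) : 0 < κ := by
  rw [P.hκ]; positivity

lemma slack (P : BarPar R lo hi c B0 κ θ M KK Q r0) (k : ℕ) (r : ℝ) :
    5 * KK * (κ * θ ^ (k + 1) * r) = θ ^ k * r / 2 := by
  calc 5 * KK * (κ * θ ^ (k + 1) * r) = (5 * KK * κ * θ) * (θ ^ k * r) := by ring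
    _ = _ := by rw [P.hθK]; ring

lemma hmax_small (P : BarPar R lo hi c B0 κ θ M KK Q r0) {k m : ℕ} (hk : k ≤ d) {r : ℝ}
    (hr : 0 ≤ r) (hm : 0 ≤ θ ^ m * r) :
    hmax k B0 (κ * θ ^ (m + 1) * r) ≤ 2 * (θ ^ m * r) := by
  have hT : 0 ≤ κ * θ ^ (m + 1) * r :=
    mul_nonneg (mul_nonneg P.κ_pos.le (pow_nonneg P.θ0.le _)) hr
  refine le_trans (P.hhm k hk _ hT) ?_
  have h5 := P.slack m r
  have h6 : κ * θ ^ (m + 1) * r * KK = θ ^ m * r / 10 := by linarith
  linarith

lemma out_bound (P : BarPar R lo hi c B0 κ θ M KK Q r0) {r : ℝ} (hr : r0 ≤ r)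
    {y : Fin d → ℝ} (hy : ∀ i, 0 < y i) {I : Finset (Fin d)}
    (hX : ∀ l ∈ I, y l / M ≤ exp (-(θ ^ I.card * r)))
    (hall : ∀ J, bar1 B0 κ θ M r y J ≤ 0) {j : Fin d} (hj : j ∉ I) :
    -(2 * (θ ^ (I.card + 1) * r)) ≤ log (y j / M) := by
  have hM0 : 0 < M := by linarith [P.hM]
  have hr' : 0 < r := lt_of_lt_of_le P.r00 hr
  have hJc : (insert j I).card = I.card + 1 := Finset.card_insert_of_notMem hj
  have hJd : (insert j I).card ≤ d := le_trans (Finset.card_le_univ _) (by simp)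
  obtain ⟨q, hq⟩ : ∃ q, q = θ ^ (I.card + 1) * r := ⟨_, rfl⟩
  rw [← hq]
  have hqQ : Q ≤ q := hq ▸ P.hq r hr _ (by omega)
  have hQ10 := P.hQ
  have hQd := P.hQd
  have hJ := hall (insert j I)
  rw [bar1, if_pos (Finset.insert_nonempty j I)] at hJ
  have e3 : κ * θ ^ ((insert j I).card + 1) * r = κ * θ ^ (I.card + 1 + 1) * r := by rw [hJc]
  have e4 : θ ^ (insert j I).card * r = q := by rw [hJc, hq]
  rw [e3, e4] at hJ
  have hsum : ∑ l ∈ insert j I, y l / M ≤ y j / M + d * exp (-(2 * q)) := by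
    rw [Finset.sum_insert hj]
    refine add_le_add le_rfl (le_trans (Finset.sum_le_card_nsmul _ _ (exp (-(2 * q)))
      fun l hl => le_trans (hX l hl) (exp_le_exp.2 ?_)) ?_)
    · have h1 := mul_le_mul_of_nonneg_right P.θhalf
        (show 0 ≤ θ ^ I.card * r from mul_nonneg (pow_nonneg P.θ0.le _) hr'.le)
      have h2 : q = θ * (θ ^ I.card * r) := by rw [hq]; ring
      linarith
    · rw [nsmul_eq_mul]
      refine mul_le_mul_of_nonneg_right ?_ (exp_pos _).le
      exact_mod_cast le_trans (Finset.card_le_univ I) (by simp)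
  have hhm : hmax (insert j I).card B0 (κ * θ ^ (I.card + 1 + 1) * r) ≤ 2 * q := by
    rw [hq]; exact P.hmax_small hJd hr'.le (by rw [← hq]; linarith)
  have hlow := const_lower (mul_pos (mul_pos P.κ_pos (pow_pos P.θ0 _)) hr') hM0 hy _
    (by linarith) hhm hsum hJ
  have hd : (0 : ℝ) ≤ d * exp (-(2 * q)) := by positivity
  have hdq := le_mul_of_one_le_left hd (show 1 ≤ q by linarith)
  have h := outside_arith (q := q) (w := y j / M) (D := d) (by linarith) (Nat.cast_nonneg _)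
    (by linarith) (by linarith)
  rw [← log_exp (-(2 * q))]
  exact log_le_log (exp_pos _) h

lemma active (P : BarPar R lo hi c B0 κ θ M KK Q r0) {r : ℝ} (hr : r0 ≤ r)
    {y : Fin d → ℝ} (hy : ∀ i, 0 < y i) (hyM : ∀ i, y i ≤ M) (hcons : Cons R c y)
    (hG : bar B0 κ θ M r y = 0) :
    ∃ n, (∀ z, (∀ i, 0 < z i) →
      bar B0 κ θ M r y + ∑ i, n i * (z i - y i) ≤ bar B0 κ θ M r z) ∧
      DecAt R lo hi n y := by
  classical
  obtain ⟨I, -, hI⟩ := Finset.exists_mem_eq_sup' Finset.univ_nonempty (bar1 B0 κ θ M r y)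
  have hall : ∀ J, bar1 B0 κ θ M r y J ≤ 0 := fun J =>
    hG ▸ Finset.le_sup' (bar1 B0 κ θ M r y) (Finset.mem_univ J)
  have hI0 : bar1 B0 κ θ M r y I = 0 := hI.symm.trans hG
  have hIne : I.Nonempty := by
    by_contra h
    simp [bar1, h] at hI0
  rw [bar1, if_pos hIne] at hI0
  have hr' : 0 < r := lt_of_lt_of_le P.r00 hr
  have hM0 : 0 < M := by linarith [P.hM]
  have hkd : I.card ≤ d := le_trans (Finset.card_le_univ I) (by simp)
  obtain ⟨T, hT⟩ : ∃ T, T = κ * θ ^ (I.card + 1) * r := ⟨_, rfl⟩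
  obtain ⟨q, hqdef⟩ : ∃ q, q = θ ^ (I.card + 1) * r := ⟨_, rfl⟩
  rw [← hT] at hI0
  have hqQ : Q ≤ q := hqdef ▸ P.hq r hr _ (by omega)
  have hQ10 := P.hQ
  have hTpos : 0 < T := hT ▸ mul_pos (mul_pos P.κ_pos (pow_pos P.θ0 _)) hr'
  have hTq : T = 2 * (d * (2 * q * B0)) + 2 * q := by rw [hT, hqdef, P.hκ]; ring
  have hdq : 0 ≤ (d : ℝ) * (2 * q * B0) :=
    mul_nonneg (Nat.cast_nonneg _) (mul_nonneg (by linarith) (Nat.cast_nonneg _))
  have hTk : tzero I.card B0 ≤ T := by linarith [P.hQt _ hkd]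
  have hξ0 : ∀ j, 0 < restr M I y j := fun j => div_pos (hy _) hM0
  have hξ1 : true = true → ∀ j, restr M I y j ≤ 1 := fun _ j => (div_le_one hM0).2 (hyM _)
  obtain ⟨s, p, n, hb⟩ := exists_best B0 true hTpos hξ0
  rw [pot_eq hb] at hI0
  have hbnd := inside_bound hTpos (P.hhm _ hkd T hTpos.le)
    (le_trans hQ10 (P.hq r hr I.card (by omega))) (by rw [hT]; exact P.slack _ _) hξ0 hb
    (by linarith)
  obtain ⟨e, he⟩ : ∃ e : Fin I.card ↪o Fin d, e = I.orderEmbOfFin rfl := ⟨_, rfl⟩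
  have hξ : ∀ j, restr M I y j = y (e j) / M := fun j => by rw [he]; rfl
  have hemem : ∀ j, e j ∈ I := fun j => he ▸ Finset.orderEmbOfFin_mem I rfl j
  have hsplit : ∀ f : Fin d → ℝ, ∑ j, f (e j) = ∑ i ∈ I, f i := by
    intro f
    conv_rhs => rw [← Finset.map_orderEmbOfFin_univ I rfl, Finset.sum_map]
    rw [he]; rfl
  obtain ⟨N, hN⟩ : ∃ N : Fin d → ℝ, N = Function.extend e n 0 := ⟨_, rfl⟩
  have hNin : ∀ j, N (e j) = n j := fun j => hN ▸ e.injective.extend_apply n 0 j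
  have hNout : ∀ i, i ∉ I → N i = 0 := by
    intro i hiI
    rw [hN, Function.extend_apply']
    · rfl
    · rintro ⟨j, rfl⟩
      exact hiI (hemem j)
  have hsumN : ∀ f : Fin d → ℝ, ∑ i, N i * f i = ∑ j, n j * f (e j) := by
    intro f
    rw [← Finset.sum_subset (Finset.subset_univ I)
      (fun i _ hi => by rw [hNout i hi, zero_mul]), ← hsplit (fun i => N i * f i)]
    exact Finset.sum_congr rfl fun j _ => by rw [hNin]
  have hXI : ∀ l ∈ I, y l / M ≤ exp (-(θ ^ I.card * r)) := by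
    intro l hl
    have : l ∈ Finset.map (I.orderEmbOfFin rfl).toEmbedding univ := by
      rw [Finset.map_orderEmbOfFin_univ]; exact hl
    obtain ⟨j, -, rfl⟩ := Finset.mem_map.1 this
    exact (hbnd j).2
  have hout : ∀ i, i ∉ I → -(2 * q) ≤ log (y i / M) := fun i hi =>
    hqdef ▸ P.out_bound hr hy hXI hall hi
  refine ⟨fun i => N i / M, fun z hz => ?_, ?_⟩
  · refine le_trans ?_ (Finset.le_sup' (bar1 B0 κ θ M r z) (Finset.mem_univ I))
    rw [hG, bar1, if_pos hIne, ← hT]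
    have h1 := le_pot hTpos (x := restr M I z) (fun j => div_pos (hz _) hM0) hb.1
    rw [← val_shift B0 T (restr M I y) (restr M I z)] at h1
    have h2 : ∑ i, N i / M * (z i - y i)
        = ∑ j, n j * (restr M I z j - restr M I y j) := by
      have : ∀ i, N i / M * (z i - y i) = N i * ((z i - y i) / M) := fun i => by ring
      simp only [this]
      rw [hsumN]
      exact Finset.sum_congr rfl fun j _ => by rw [he]; unfold restr; rw [sub_div]
    rw [h2]
    linarith
  · have hne : ¬ Annih R N := by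
      intro hann
      have h1 := hcons N hann
      rw [hsumN (fun i => y i - c i)] at h1
      have hpos : ∀ j, 0 < n j * (y (e j) - c (e j)) := by
        intro j
        refine mul_pos_of_neg_of_neg (by linarith [(hbnd j).1]) (sub_neg.2 ?_)
        have h2 : y (e j) / M ≤ exp (-(θ ^ I.card * r)) := hξ j ▸ (hbnd j).2
        rw [div_le_iff₀ hM0] at h2
        have h3 : exp (-(θ ^ I.card * r)) * M < c (e j) := by
          rw [← exp_log hM0, ← exp_add, ← exp_log (P.c0 (e j))]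
          refine exp_lt_exp.2 ?_
          linarith [P.hQc (e j), P.hq r hr I.card (by omega)]
        linarith
      have : Nonempty (Fin I.card) := ⟨⟨0, hIne.card_pos⟩⟩
      exact (Finset.sum_pos (fun j _ => hpos j) Finset.univ_nonempty).ne' h1
    have hdec : DecAt R lo hi N y := by
      refine decAt_of_sign P.wr P.lo0 (P.hQnet (q - d * B0 * log M) (by linarith)) hy N ?_ hne
      intro a ha b hb' hab
      obtain ⟨zz, hzz⟩ : ∃ zz : Fin d → ℤ, zz = fun i => (b i : ℤ) - (a i : ℤ) := ⟨_, rfl⟩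
      have elp : ∀ m : Fin d → ℝ, lp m b - lp m a = ∑ i, m i * (zz i : ℝ) := by
        intro m
        unfold lp
        rw [← Finset.sum_sub_distrib]
        exact Finset.sum_congr rfl fun i _ => by simp [hzz]; ring
      have hzabs : ∀ i, |zz i| ≤ (B0 : ℤ) := fun i => by
        rw [hzz, P.hB0]; exact abs_sub_le_maxCoeff ha hb' i
      have h1 : 0 < dot n (fun j => zz (e j)) := by
        have := elp N
        rw [hsumN (fun i => (zz i : ℝ))] at this
        unfold dot; linarith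
      have h2 := best_sign hTk hξ0 hξ1 hb (z := fun j => zz (e j)) (fun j => hzabs _) h1
      have h3 : T ≤ ∑ i ∈ I, log (y i / M) * (zz i : ℝ) := by
        rw [← hsplit (fun i => log (y i / M) * (zz i : ℝ))]
        refine le_trans h2 (le_of_eq (Finset.sum_congr rfl fun j _ => ?_))
        simp only [hξ]
      have h4 := sign_outside P.hM (by linarith) hy hyM hout (fun i => (zz i : ℝ))
        (fun i => by exact_mod_cast hzabs i) (Nat.cast_nonneg B0) h3
      rw [elp]
      linarith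
    intro kr hkr
    have := hdec kr hkr
    have e2 : ∑ i, N i / M * massAction R kr y i = (∑ i, N i * massAction R kr y i) / M := by
      rw [Finset.sum_div]; exact Finset.sum_congr rfl fun i _ => by ring
    rw [e2]
    exact div_neg_of_neg_of_pos this hM0

lemma away (P : BarPar R lo hi c B0 κ θ M KK Q r0) {r : ℝ} (hr : r0 ≤ r) :
    ∃ ε, 0 < ε ∧ ∀ y : Fin d → ℝ, (∀ i, 0 < y i) → bar B0 κ θ M r y ≤ 0 → ∀ i, ε ≤ y i := by
  have hM0 : 0 < M := by linarith [P.hM]
  have hr' : 0 < r := lt_of_lt_of_le P.r00 hr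
  obtain ⟨q, hqdef⟩ : ∃ q, q = θ * r := ⟨_, rfl⟩
  refine ⟨M * exp (-(2 * q)), mul_pos hM0 (exp_pos _), fun y hy hG i => ?_⟩
  have hd : 1 ≤ d := by have := i.2; omega
  have hqQ : Q ≤ q := by
    have := P.hq r hr 1 (by omega)
    rw [hqdef]; simpa using this
  have hJ : bar1 B0 κ θ M r y {i} ≤ 0 :=
    le_trans (Finset.le_sup' (bar1 B0 κ θ M r y) (Finset.mem_univ _)) hG
  rw [bar1, if_pos (Finset.singleton_nonempty i)] at hJ
  have hQ10 := P.hQ
  have hQd := P.hQd
  have hsum : ∑ l ∈ ({i} : Finset (Fin d)), y l / M ≤ y i / M := by simp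
  have e3 : κ * θ ^ (({i} : Finset (Fin d)).card + 1) * r = κ * θ ^ (1 + 1) * r := by simp
  have e4 : θ ^ ({i} : Finset (Fin d)).card * r = q := by simp [hqdef]
  rw [e3, e4] at hJ
  have hhm : hmax ({i} : Finset (Fin d)).card B0 (κ * θ ^ (1 + 1) * r) ≤ 2 * q := by
    have := P.hmax_small (k := ({i} : Finset (Fin d)).card) (m := 1) (by simpa using hd) hr'.le
      (mul_nonneg (pow_nonneg P.θ0.le _) hr'.le)
    rwa [pow_one, ← hqdef] at this
  have hlow := const_lower (mul_pos (mul_pos P.κ_pos (pow_pos P.θ0 _)) hr') hM0 hy _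
    (by linarith) hhm hsum hJ
  have hd0 : (0 : ℝ) ≤ d * exp (-(2 * q)) := by positivity
  have hdq := le_mul_of_one_le_left hd0 (show 1 ≤ 3 * q by linarith)
  have h := outside_arith (q := q) (w := y i / M) (D := d) (by linarith) (Nat.cast_nonneg _)
    (by linarith) (by linarith)
  have := mul_le_mul_of_nonneg_left h hM0.le
  rwa [mul_div_cancel₀ _ hM0.ne'] at this

lemma interior (P : BarPar R lo hi c B0 κ θ M KK Q r0) (a : ℝ) (ha : 0 < a) :
    ∃ r1, ∀ r, r1 ≤ r → ∀ y : Fin d → ℝ, (∀ i, a ≤ y i) → (∀ i, y i ≤ M) →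
      bar B0 κ θ M r y < 0 := by
  have hM0 : 0 < M := by linarith [P.hM]
  refine ⟨max r0 ((2 * (|log (a / M)| + 1)) / θ ^ d), fun r hr y hya hyM => ?_⟩
  rw [max_le_iff] at hr
  have hr' : 0 < r := lt_of_lt_of_le P.r00 hr.1
  refine (Finset.sup'_lt_iff _).2 fun I _ => ?_
  unfold bar1
  split_ifs with hIne
  swap
  · norm_num
  have hkd : I.card ≤ d := le_trans (Finset.card_le_univ I) (by simp)
  obtain ⟨T, hT⟩ : ∃ T, T = κ * θ ^ (I.card + 1) * r := ⟨_, rfl⟩
  rw [← hT]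
  have hTpos : 0 < T := hT ▸ mul_pos (mul_pos P.κ_pos (pow_pos P.θ0 _)) hr'
  have hξ0 : ∀ j, 0 < restr M I y j := fun j => div_pos (lt_of_lt_of_le ha (hya _)) hM0
  have hξ1 : true = true → ∀ j, restr M I y j ≤ 1 := fun _ j => (div_le_one hM0).2 (hyM _)
  have hTk : tzero I.card B0 ≤ T := by
    have h2 := P.hq r hr.1 (I.card + 1) (by omega)
    have h3 : θ ^ (I.card + 1) * r ≤ T := by
      rw [hT, mul_assoc]
      refine le_mul_of_one_le_left (mul_nonneg (pow_nonneg P.θ0.le _) hr'.le) ?_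
      rw [P.hκ]
      have : 0 ≤ 4 * (d : ℝ) * B0 := by positivity
      linarith
    linarith [P.hQt _ hkd]
  obtain ⟨s, p, n, hb⟩ := exists_best B0 true hTpos hξ0
  rw [pot_eq hb]
  have hneg := hb.1.capped rfl
  obtain ⟨i0, -⟩ : ∃ i0 : Fin I.card, True := ⟨⟨0, hIne.card_pos⟩, trivial⟩
  rw [val_split B0 T _ hb.1.bij, ← Finset.add_sum_erase _ _ (Finset.mem_univ i0)]
  have h3 : ∑ l ∈ univ.erase i0,
      (restr M I y (s l) * n (s l) - exp (n (s l) - shift B0 T p l)) ≤ 0 :=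
    Finset.sum_nonpos fun l _ => term_nonpos (hξ0 _).le (hneg _)
  have h4 := mul_nonpos_of_nonneg_of_nonpos (hξ0 (s i0)).le (hneg (s i0))
  have h5 : -(θ ^ I.card * r) < n (s i0) - shift B0 T p i0 := by
    have hhm := P.hhm _ hkd T hTpos.le
    have h6 : shift B0 T p i0 ≤ T * KK :=
      le_trans (le_trans (shift_le_gam B0 hTpos.le p i0) (gam_le_hmax B0 hTpos.le p)) hhm
    have h7 : |log (restr M I y (s i0)) - n (s i0)| ≤ 2 * (T * KK) :=
      le_trans (best_close hTk hξ0 hξ1 hb _)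
        (by linarith [le_trans (gam_le_hmax B0 hTpos.le p) hhm])
    have h8 : log (a / M) ≤ log (restr M I y (s i0)) :=
      log_le_log (div_pos ha hM0) (div_le_div_of_nonneg_right (hya _) hM0.le)
    have h9 := P.slack I.card r
    rw [← hT] at h9
    have h10 : 2 * (|log (a / M)| + 1) ≤ θ ^ I.card * r := by
      have h11 := (div_le_iff₀ (pow_pos P.θ0 d)).1 hr.2
      have := mul_le_mul_of_nonneg_right
        (pow_le_pow_of_le_one P.θ0.le (by linarith [P.θhalf]) hkd) hr'.le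
      linarith
    have h12 : 0 ≤ T * KK := mul_nonneg hTpos.le P.KK0
    linarith [(abs_le.1 h7).2, neg_abs_le (log (a / M))]
  have := exp_lt_exp.2 h5
  linarith

end BarPar

theorem stage_two {R : Finset ((Fin d → ℕ) × (Fin d → ℕ))} (hR : WeaklyReversible R)
    {lo : ℝ} (hlo : 0 < lo) (hi : ℝ) {c : Fin d → ℝ} (hc : ∀ i, 0 < c i) {M : ℝ} (hM : 1 ≤ M) :
    ∃ (G : ℝ → (Fin d → ℝ) → ℝ) (r0 : ℝ),
      0 < r0 ∧
      ContinuousOn (fun w : ℝ × (Fin d → ℝ) => G w.1 w.2) {w | 0 < w.1 ∧ ∀ i, 0 < w.2 i} ∧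
      (∀ r, r0 ≤ r → ∀ y, (∀ i, 0 < y i) → (∀ i, y i ≤ M) → Cons R c y → G r y = 0 →
        ∃ n, (∀ z, (∀ i, 0 < z i) → G r y + ∑ i, n i * (z i - y i) ≤ G r z) ∧
          DecAt R lo hi n y) ∧
      (∀ r, r0 ≤ r → ∃ ε, 0 < ε ∧ ∀ y, (∀ i, 0 < y i) → G r y ≤ 0 → ∀ i, ε ≤ y i) ∧
      (∀ a, 0 < a → ∃ r1, ∀ r, r1 ≤ r → ∀ y, (∀ i, a ≤ y i) → (∀ i, y i ≤ M) → G r y < 0) := by
  obtain ⟨T0, hT00, hT0⟩ := net_threshold R hlo hi
  obtain ⟨B0, hB0⟩ : ∃ B0, B0 = maxCoeff R := ⟨_, rfl⟩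
  obtain ⟨KK, hKK⟩ : ∃ KK, KK = 1 + ∑ k ∈ Finset.range (d + 1), kc k B0 ^ (2 ^ k) := ⟨_, rfl⟩
  have hkpow : ∀ k, (0 : ℝ) ≤ kc k B0 ^ (2 ^ k) := fun k =>
    pow_nonneg (by linarith [one_le_kc k B0]) _
  have hKK1 : 1 ≤ KK := by
    have : 0 ≤ ∑ k ∈ Finset.range (d + 1), kc k B0 ^ (2 ^ k) :=
      Finset.sum_nonneg fun k _ => hkpow k
    linarith
  obtain ⟨κ, hκ⟩ : ∃ κ, κ = 4 * (d : ℝ) * B0 + 2 := ⟨_, rfl⟩
  have hκ2 : 2 ≤ κ := by
    have : 0 ≤ 4 * (d : ℝ) * B0 := by positivity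
    linarith
  obtain ⟨θ, hθ⟩ : ∃ θ, θ = 1 / (10 * KK * κ) := ⟨_, rfl⟩
  have hKκ : 1 ≤ KK * κ := one_le_mul_of_one_le_of_one_le hKK1 (by linarith)
  have hθ0 : 0 < θ := by rw [hθ]; positivity
  have hθhalf : θ ≤ 1 / 2 := by
    rw [hθ]; exact div_le_div₀ zero_le_one le_rfl (by norm_num) (by linarith)
  obtain ⟨Q, hQ⟩ : ∃ Q, Q = (∑ k ∈ Finset.range (d + 1), |tzero k B0|) + T0
      + d * B0 * log M + 12 * d + log M + (∑ i, |log (c i)|) + 10 := ⟨_, rfl⟩
  have h1 : 0 ≤ ∑ k ∈ Finset.range (d + 1), |tzero k B0| :=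
    Finset.sum_nonneg fun k _ => abs_nonneg _
  have h2 : 0 ≤ log M := log_nonneg hM
  have h3 : 0 ≤ (d : ℝ) * B0 * log M := by positivity
  have h4 : 0 ≤ 12 * (d : ℝ) := by positivity
  have h5 : 0 ≤ ∑ i, |log (c i)| := Finset.sum_nonneg fun i _ => abs_nonneg _
  have P : BarPar R lo hi c B0 κ θ M KK Q (Q / θ ^ (d + 1)) := {
    wr := hR, lo0 := hlo, c0 := hc, hB0 := hB0, hκ := hκ, θ0 := hθ0, θhalf := hθhalf
    KK0 := by linarith
    hθK := by rw [hθ]; field_simp; ring
    hhm := fun k hk T hT => by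
      refine mul_le_mul_of_nonneg_left ?_ hT
      have := Finset.single_le_sum (f := fun k => kc k B0 ^ (2 ^ k)) (fun k _ => hkpow k)
        (Finset.mem_range.2 (Nat.lt_succ_of_le hk))
      linarith
    hM := hM
    hQ := by linarith
    hQd := by linarith
    hQt := fun k hk => by
      have := Finset.single_le_sum (f := fun k => |tzero k B0|) (fun k _ => abs_nonneg _)
        (Finset.mem_range.2 (Nat.lt_succ_of_le hk))
      linarith [le_abs_self (tzero k B0)]
    hQnet := fun T hT => hT0 T (by linarith)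
    hQc := fun i => by
      have := Finset.single_le_sum (f := fun i => |log (c i)|) (fun i _ => abs_nonneg _)
        (Finset.mem_univ i)
      linarith [neg_abs_le (log (c i))]
    r00 := div_pos (by linarith) (pow_pos hθ0 _)
    hq := fun r hr m hm => by
      rw [div_le_iff₀ (pow_pos hθ0 _)] at hr
      have hQ0 : 0 < Q := by linarith
      have hr' : 0 ≤ r := by
        by_contra hneg
        have := mul_neg_of_neg_of_pos (not_le.1 hneg) (pow_pos hθ0 (d + 1))
        linarith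
      have := mul_le_mul_of_nonneg_right
        (pow_le_pow_of_le_one hθ0.le (by linarith) hm) hr'
      linarith }
  exact ⟨bar B0 κ θ M, _, P.r00, bar_continuousOn B0 P.κ_pos hθ0 (by linarith),
    fun r hr y hy hyM hcons hG => P.active hr hy hyM hcons hG,
    fun r hr => P.away hr, P.interior⟩

end Vale.Agent.P072
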