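import Mathlib

/-!
# Mass-action systems (definitions used in the statement)
-/

noncomputable section

open scoped BigOperators

namespace Vale.Agent.P072

/-- A finite reaction network on `d` species, given by its finite set of reactions
`(source complex, target complex)`. It is weakly reversible if each reaction's target has a
directed path back to its source. -/
def WeaklyReversible {d : ℕ} (R : Finset ((Fin d → ℕ) × (Fin d → ℕ))) : Prop :=
  ∀ r ∈ R, Relation.ReflTransGen (fun a b : Fin d → ℕ => (a, b) ∈ R) r.2 r.1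

/-- The monomial `x^y`. -/
def monom {d : ℕ} (x : Fin d → ℝ) (y : Fin d → ℕ) : ℝ := ∏ i, x i ^ y i

/-- The reaction vector `y' - y`. -/
def reactionVec {d : ℕ} (r : (Fin d → ℕ) × (Fin d → ℕ)) : Fin d → ℝ :=
  fun i => (r.2 i : ℝ) - (r.1 i : ℝ)

/-- The mass-action vector field. -/
def massAction {d : ℕ} (R : Finset ((Fin d → ℕ) × (Fin d → ℕ)))
    (k : ((Fin d → ℕ) × (Fin d → ℕ)) → ℝ) (x : Fin d → ℝ) : Fin d → ℝ :=
  ∑ r ∈ R, (k r * monom x r.1) • reactionVec r

/-- The stoichiometric subspace. -/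
def stoich {d : ℕ} (R : Finset ((Fin d → ℕ) × (Fin d → ℕ))) : Submodule ℝ (Fin d → ℝ) :=
  Submodule.span ℝ (reactionVec '' (R : Set ((Fin d → ℕ) × (Fin d → ℕ))))

/-- The positive stoichiometric class of `c`. -/
def posClass {d : ℕ} (R : Finset ((Fin d → ℕ) × (Fin d → ℕ))) (c : Fin d → ℝ) :
    Set (Fin d → ℝ) :=
  {x | (∀ i, 0 < x i) ∧ x - c ∈ stoich R}

end Vale.Agent.P072
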