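import Vale.Agent.P072.Barrier

/-!
# From barriers to permanence
-/

noncomputable section

open Finset Real Set Filter Topology
open scoped BigOperators

namespace Vale.Agent.P072

variable {d : ℕ}

lemma annih_iff (R : Finset ((Fin d → ℕ) × (Fin d → ℕ))) (n : Fin d → ℝ) :
    Annih R n ↔ ∀ r ∈ R, ∑ i, n i * reactionVec r i = 0 := by
  refine forall₂_congr fun r _ => ?_
  have : ∑ i, n i * reactionVec r i = lp n r.2 - lp n r.1 := by
    unfold lp reactionVec
    rw [← Finset.sum_sub_distrib]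
    exact Finset.sum_congr rfl fun i _ => by ring
  rw [this, sub_eq_zero]
  exact eq_comm

lemma cons_iff (R : Finset ((Fin d → ℕ) × (Fin d → ℕ))) (c x : Fin d → ℝ) :
    Cons R c x ↔ x - c ∈ stoich R := by
  constructor
  · intro h
    by_contra hx
    obtain ⟨f, hf, hf0⟩ := Submodule.exists_dual_map_eq_bot_of_notMem hx inferInstance
    have hfn : ∀ w : Fin d → ℝ, f w = ∑ i, f (Pi.single i 1) * w i := by
      intro w
      conv_lhs => rw [← Finset.univ_sum_single w]
      rw [map_sum]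
      refine Finset.sum_congr rfl fun i _ => ?_
      have : (Pi.single i (w i) : Fin d → ℝ) = w i • Pi.single i 1 := by
        rw [← Pi.single_smul]; simp
      rw [this, map_smul, smul_eq_mul, mul_comm]
    have hann : Annih R (fun i => f (Pi.single i 1)) := by
      rw [annih_iff]
      intro r hr
      rw [← hfn]
      have : f (reactionVec r) ∈ (stoich R).map f :=
        Submodule.mem_map_of_mem (Submodule.subset_span ⟨r, hr, rfl⟩)
      rw [hf0] at this
      exact (Submodule.mem_bot ℝ).1 this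
    apply hf
    rw [hfn]
    simpa using h _ hann
  · intro h n hn
    rw [annih_iff] at hn
    have hspan : ∀ w ∈ stoich R, ∑ i, n i * w i = 0 := by
      intro w hw
      induction hw using Submodule.span_induction with
      | mem w hw =>
        obtain ⟨r, hr, rfl⟩ := hw
        exact hn r hr
      | zero => simp
      | add a b _ _ ha hb => simp [mul_add, Finset.sum_add_distrib, ha, hb]
      | smul a w _ hw =>
        simp only [Pi.smul_apply, smul_eq_mul, mul_left_comm _ a]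
        rw [← Finset.mul_sum, hw, mul_zero]
    simpa using hspan _ h

lemma cons_closed (R : Finset ((Fin d → ℕ) × (Fin d → ℕ))) (c : Fin d → ℝ) :
    IsClosed {x | Cons R c x} := by
  have : {x | Cons R c x} = ⋂ n, ⋂ (_ : Annih R n), {x | ∑ i, n i * (x i - c i) = 0} := by
    ext x; simp [Cons]
  rw [this]
  exact isClosed_iInter fun n => isClosed_iInter fun _ =>
    isClosed_eq (by fun_prop) continuous_const

/-- A solution of the mass-action system with rates in the window, on the time set `s`. -/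
def Traj (R : Finset ((Fin d → ℕ) × (Fin d → ℕ))) (lo hi : ℝ) (s : Set ℝ)
    (x : ℝ → Fin d → ℝ) : Prop :=
  ∀ t ∈ s, ∃ k, Rates R lo hi k ∧ HasDerivWithinAt x (massAction R k (x t)) s t

lemma Traj.continuousOn {R : Finset ((Fin d → ℕ) × (Fin d → ℕ))} {lo hi : ℝ} {s : Set ℝ}
    {x : ℝ → Fin d → ℝ} (h : Traj R lo hi s x) : ContinuousOn x s := fun t ht => by
  obtain ⟨k, -, hk⟩ := h t ht
  exact hk.continuousWithinAt

lemma Traj.mono {R : Finset ((Fin d → ℕ) × (Fin d → ℕ))} {lo hi : ℝ} {s u : Set ℝ}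
    {x : ℝ → Fin d → ℝ} (h : Traj R lo hi s x) (hu : u ⊆ s) : Traj R lo hi u x := fun t ht => by
  obtain ⟨k, h1, hk⟩ := h t (hu ht)
  exact ⟨k, h1, hk.mono hu⟩

lemma hasDeriv_pair {x : ℝ → Fin d → ℝ} {v : Fin d → ℝ} {s : Set ℝ} {t : ℝ}
    (h : HasDerivWithinAt x v s t) (n : Fin d → ℝ) :
    HasDerivWithinAt (fun u => ∑ i, n i * x u i) (∑ i, n i * v i) s t :=
  HasDerivWithinAt.fun_sum fun i _ => (hasDerivWithinAt_pi.1 h i).const_mul (n i)

lemma Traj.cons {R : Finset ((Fin d → ℕ) × (Fin d → ℕ))} {lo hi b : ℝ}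
    {x : ℝ → Fin d → ℝ} (h : Traj R lo hi (Icc 0 b) x) {c : Fin d → ℝ} (h0 : Cons R c (x 0))
    {t : ℝ} (ht : t ∈ Icc 0 b) : Cons R c (x t) := by
  intro n hn
  have hz : ∀ k y, ∑ i, n i * massAction R k y i = 0 := by
    intro k y
    rw [pair_massAction]
    exact Finset.sum_eq_zero fun r hr => by rw [hn r hr, sub_self, mul_zero]
  have hcont : ContinuousOn (fun u => ∑ i, n i * x u i) (Icc 0 b) := by
    have := h.continuousOn
    exact continuousOn_finsetSum _ fun i _ =>
      ((continuous_apply i).comp_continuousOn this).const_smul (n i)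
  have := constant_of_has_deriv_right_zero hcont (fun u hu => ?_) t ht
  · have h0' := h0 n hn
    simp only [mul_sub, Finset.sum_sub_distrib] at h0' ⊢
    linarith
  · obtain ⟨k, -, hk⟩ := h u (Ico_subset_Icc_self hu)
    have := hasDeriv_pair hk n
    rw [hz] at this
    exact this.mono_of_mem_nhdsWithin (Icc_mem_nhdsGE_of_mem hu)

lemma exists_earlier_gt {g : ℝ → ℝ} {D t : ℝ} (ht : 0 < t)
    (hg : HasDerivWithinAt g D (Icc 0 t) t) (hD : D < 0) : ∃ s, 0 ≤ s ∧ s < t ∧ g t < g s := by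
  have h1 := hasDerivWithinAt_iff_tendsto_slope.1 hg
  rw [Icc_sdiff_right] at h1
  have := right_nhdsWithin_Ico_neBot ht
  obtain ⟨s, hs, hmem⟩ := ((h1.eventually (eventually_lt_nhds hD)).and self_mem_nhdsWithin).exists
  refine ⟨s, hmem.1, hmem.2, ?_⟩
  rw [slope_def_field] at hs
  by_contra hcon
  rw [not_lt] at hcon
  have : 0 ≤ (g s - g t) / (s - t) :=
    div_nonneg_of_nonpos (by linarith) (by linarith [hmem.2])
  linarith

/-- A positive trajectory cannot reach the zero level of a barrier. -/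
lemma barrier_lt {R : Finset ((Fin d → ℕ) × (Fin d → ℕ))} {lo hi b : ℝ}
    {x : ℝ → Fin d → ℝ} (h : Traj R lo hi (Icc 0 b) x) (G : (Fin d → ℝ) → ℝ)
    (Q : (Fin d → ℝ) → Prop) (hG : ContinuousOn G {y | ∀ i, 0 < y i})
    (hdec : ∀ y, (∀ i, 0 < y i) → Q y → G y = 0 →
      ∃ n, (∀ z, (∀ i, 0 < z i) → G y + ∑ i, n i * (z i - y i) ≤ G z) ∧ DecAt R lo hi n y)
    (hpos : ∀ t ∈ Icc 0 b, ∀ i, 0 < x t i) (hQ : ∀ t ∈ Icc 0 b, Q (x t)) (h0 : G (x 0) < 0)
    {t : ℝ} (ht : t ∈ Icc 0 b) : G (x t) < 0 := by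
  by_contra hcon
  rw [not_lt] at hcon
  have hg : ContinuousOn (fun u => G (x u)) (Icc 0 b) := hG.comp h.continuousOn hpos
  set A := Icc 0 b ∩ (fun u => G (x u)) ⁻¹' Ici 0 with hA
  have hAc : IsClosed A := hg.preimage_isClosed_of_isClosed isClosed_Icc isClosed_Ici
  have hAb : BddBelow A := ⟨0, fun u hu => hu.1.1⟩
  obtain ⟨hmem, hge⟩ := hAc.csInf_mem ⟨t, ht, hcon⟩ hAb
  set T := sInf A
  have hbefore : ∀ u, 0 ≤ u → u < T → G (x u) < 0 := by
    intro u hu huT
    by_contra hc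
    rw [not_lt] at hc
    exact absurd (csInf_le hAb ⟨⟨hu, by linarith [hmem.2]⟩, hc⟩) (not_le.2 huT)
  have hge' : 0 ≤ G (x T) := hge
  have hTpos : 0 < T := by
    rcases eq_or_lt_of_le hmem.1 with e | e
    · exact absurd hge' (not_le.2 (e ▸ h0))
    · exact e
  have hzero : G (x T) = 0 := by
    refine le_antisymm ?_ hge'
    have := right_nhdsWithin_Ico_neBot hTpos
    refine le_of_tendsto ((hg T hmem).mono_left (nhdsWithin_mono _
      (show Ico 0 T ⊆ Icc 0 b from fun u hu => ⟨hu.1, by linarith [hu.2, hmem.2]⟩))) ?_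
    exact eventually_nhdsWithin_of_forall fun u hu => (hbefore u hu.1 hu.2).le
  obtain ⟨n, hn, hd⟩ := hdec _ (hpos T hmem) (hQ T hmem) hzero
  obtain ⟨k, hk, hder⟩ := h T hmem
  obtain ⟨u, hu0, huT, hlt⟩ := exists_earlier_gt hTpos
    ((hasDeriv_pair hder n).mono (Icc_subset_Icc le_rfl hmem.2)) (hd k hk)
  have h1 := hn (x u) (hpos u ⟨hu0, by linarith [hmem.2]⟩)
  simp only [mul_sub, Finset.sum_sub_distrib] at h1
  have := hbefore u hu0 huT
  linarith

lemma apriori {R : Finset ((Fin d → ℕ) × (Fin d → ℕ))} (hR : WeaklyReversible R) {lo : ℝ}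
    (hlo : 0 < lo) (hi : ℝ) {c : Fin d → ℝ} (hc : ∀ i, 0 < c i) {x0 : Fin d → ℝ}
    (hx0 : ∀ i, 0 < x0 i) (hcx : Cons R c x0) :
    ∃ ε M, 0 < ε ∧ ε ≤ M ∧ ∀ b, ∀ x : ℝ → Fin d → ℝ, 0 ≤ b → x 0 = x0 →
      Traj R lo hi (Icc 0 b) x → (∀ t ∈ Icc 0 b, ∀ i, 0 < x t i) →
      ∀ t ∈ Icc 0 b, ∀ i, ε ≤ x t i ∧ x t i ≤ M := by
  obtain ⟨U, R0, hU, hbd, hdec⟩ := stage_one hR hlo hi hc
  obtain ⟨L, hL⟩ : ∃ L, L = max R0 (U x0) + 1 := ⟨_, rfl⟩
  obtain ⟨M, hM1, hM⟩ := hbd L
  have hL1 : U x0 < L := by linarith [le_max_right R0 (U x0)]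
  have hL2 : R0 < L := by linarith [le_max_left R0 (U x0)]
  have hx0M : ∀ i, x0 i ≤ M := hM x0 hx0 hL1.le
  obtain ⟨G, r0, hr0, hG, hdec2, haway, hint⟩ := stage_two hR hlo hi hc hM1
  obtain ⟨a, ha, hax⟩ : ∃ a, 0 < a ∧ ∀ i, a ≤ x0 i := by
    refine ⟨((∑ j, (x0 j)⁻¹) + 1)⁻¹, ?_, fun i => ?_⟩
    · have : 0 ≤ ∑ j, (x0 j)⁻¹ := Finset.sum_nonneg fun j _ => (inv_pos.2 (hx0 j)).le
      positivity
    · refine inv_le_of_inv_le₀ (hx0 i) ?_
      have := Finset.single_le_sum (f := fun j => (x0 j)⁻¹)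
        (fun j _ => (inv_pos.2 (hx0 j)).le) (Finset.mem_univ i)
      linarith
  obtain ⟨r1, hr1⟩ := hint a ha
  set r := max r0 r1 with hr
  have hrpos : 0 < r := lt_of_lt_of_le hr0 (le_max_left _ _)
  obtain ⟨ε, hε, hεy⟩ := haway r (le_max_left _ _)
  refine ⟨min ε M, M, lt_min hε (by linarith), min_le_right _ _, ?_⟩
  intro b x hb hx htraj hpos t ht i
  have hQ : ∀ t ∈ Icc 0 b, Cons R c (x t) := fun t ht => htraj.cons (hx ▸ hcx) ht
  have hup : ∀ t ∈ Icc 0 b, ∀ i, x t i ≤ M := by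
    intro t ht
    have := barrier_lt htraj (fun y => U y - L) (Cons R c) (hU.sub continuousOn_const)
      (fun y hy hQy hy0 => by
        obtain ⟨n, hn, hd⟩ := hdec y hy hQy (by linarith)
        exact ⟨n, fun z hz => by linarith [hn z hz], hd⟩)
      hpos hQ (by simp only [hx]; linarith) ht
    exact hM _ (hpos t ht) (by linarith)
  have hGr : ContinuousOn (fun y => G r y) {y : Fin d → ℝ | ∀ i, 0 < y i} :=
    hG.comp (continuous_const.prodMk continuous_id).continuousOn fun y hy => ⟨hrpos, hy⟩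
  have := barrier_lt htraj (fun y => G r y) (fun y => (∀ i, y i ≤ M) ∧ Cons R c y) hGr
    (fun y hy hQy hy0 => hdec2 r (le_max_left _ _) y hy hQy.1 hQy.2 hy0)
    hpos (fun t ht => ⟨hup t ht, hQ t ht⟩)
    (by simp only [hx]; exact hr1 r (le_max_right _ _) x0 hax hx0M) ht
  exact ⟨le_trans (min_le_left _ _) (hεy _ (hpos t ht) this.le i), hup t ht i⟩

lemma traj_pos {R : Finset ((Fin d → ℕ) × (Fin d → ℕ))} (hR : WeaklyReversible R) {lo : ℝ}
    (hlo : 0 < lo) (hi : ℝ) {c : Fin d → ℝ} (hc : ∀ i, 0 < c i) {x : ℝ → Fin d → ℝ} {b : ℝ}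
    (htraj : Traj R lo hi (Icc 0 b) x) (hx0 : ∀ i, 0 < x 0 i) (hcx : Cons R c (x 0))
    {t : ℝ} (ht : t ∈ Icc 0 b) : ∀ i, 0 < x t i := by
  obtain ⟨ε, M, hε, -, hbound⟩ := apriori hR hlo hi hc hx0 hcx
  by_contra hcon
  rw [not_forall] at hcon
  obtain ⟨i, hneg⟩ := hcon
  rw [not_lt] at hneg
  set A := Icc 0 b ∩ x ⁻¹' (⋃ i, {y : Fin d → ℝ | y i ≤ 0}) with hA
  have hAc : IsClosed A := htraj.continuousOn.preimage_isClosed_of_isClosed isClosed_Icc
    (isClosed_iUnion_of_finite fun i => isClosed_le (continuous_apply i) continuous_const)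
  have hAb : BddBelow A := ⟨0, fun u hu => hu.1.1⟩
  obtain ⟨hmem, hj⟩ := hAc.csInf_mem ⟨t, ht, Set.mem_iUnion.2 ⟨i, hneg⟩⟩ hAb
  obtain ⟨j, hj⟩ := Set.mem_iUnion.1 hj
  set T := sInf A
  change x T j ≤ 0 at hj
  have hbefore : ∀ u, 0 ≤ u → u < T → ∀ l, 0 < x u l := by
    intro u hu huT l
    by_contra hc
    rw [not_lt] at hc
    exact absurd (csInf_le hAb ⟨⟨hu, by linarith [hmem.2]⟩, Set.mem_iUnion.2 ⟨l, hc⟩⟩)
      (not_le.2 huT)
  have hTpos : 0 < T := by
    rcases eq_or_lt_of_le hmem.1 with e | e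
    · exact absurd hj (not_le.2 (e ▸ hx0 j))
    · exact e
  have hlow : ∀ u ∈ Ico 0 T, ε ≤ x u j := by
    intro u hu
    exact (hbound u x hu.1 rfl (htraj.mono (Icc_subset_Icc le_rfl (by linarith [hu.2, hmem.2])))
      (fun v hv => hbefore v hv.1 (lt_of_le_of_lt hv.2 hu.2)) u ⟨hu.1, le_rfl⟩ j).1
  have := right_nhdsWithin_Ico_neBot hTpos
  have : ε ≤ x T j := by
    refine ge_of_tendsto ((((continuous_apply j).comp_continuousOn htraj.continuousOn) T
      hmem).mono_left (nhdsWithin_mono _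
      (show Ico 0 T ⊆ Icc 0 b from fun u hu => ⟨hu.1, by linarith [hu.2, hmem.2]⟩))) ?_
    exact eventually_nhdsWithin_of_forall fun u hu => hlow u hu
  linarith

lemma monom_continuous (y : Fin d → ℕ) : Continuous fun x : Fin d → ℝ => monom x y := by
  unfold monom; fun_prop

lemma massAction_bound (R : Finset ((Fin d → ℕ) × (Fin d → ℕ))) (lo hi : ℝ)
    {B : Set (Fin d → ℝ)} (hB : IsCompact B) :
    ∃ V, 0 ≤ V ∧ ∀ z ∈ B, ∀ k, Rates R lo hi k → ‖massAction R k z‖ ≤ V := by
  obtain ⟨V, hV⟩ := hB.exists_bound_of_continuousOn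
    (f := fun z => ∑ r ∈ R, max |lo| |hi| * |monom z r.1| * ‖reactionVec r‖)
    (continuous_finsetSum _ fun r _ =>
      ((monom_continuous r.1).abs.const_smul (max |lo| |hi|)).mul continuous_const).continuousOn
  refine ⟨max V 0, le_max_right _ _, fun z hz k hk => ?_⟩
  refine le_trans ?_ (le_trans (le_trans (le_abs_self _) (hV z hz)) (le_max_left _ _))
  refine le_trans (norm_sum_le _ _) (Finset.sum_le_sum fun r hr => ?_)
  rw [norm_smul, Real.norm_eq_abs, abs_mul]
  refine mul_le_mul_of_nonneg_right (mul_le_mul_of_nonneg_right ?_ (abs_nonneg _)) (norm_nonneg _)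
  have := hk r hr
  rw [abs_le]
  constructor
  · linarith [neg_abs_le lo, le_max_left |lo| |hi|]
  · linarith [le_abs_self hi, le_max_right |lo| |hi|]

/-- Along a trajectory a strictly decreasing functional gives another cluster point above. -/
lemma cluster_step {R : Finset ((Fin d → ℕ) × (Fin d → ℕ))} {lo hi : ℝ} (hlohi : lo ≤ hi)
    {x : ℝ → Fin d → ℝ} (h : Traj R lo hi (Ici 0) x) {B : Set (Fin d → ℝ)} (hB : IsCompact B)
    (hxB : ∀ t, 0 ≤ t → x t ∈ B) {y : Fin d → ℝ} (hy : MapClusterPt y atTop x)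
    {n : Fin d → ℝ} (hn : DecAt R lo hi n y) :
    ∃ y', MapClusterPt y' atTop x ∧ 0 < ∑ i, n i * (y' i - y i) := by
  obtain ⟨V, hV0, hV⟩ := massAction_bound R lo hi hB
  set worst : (Fin d → ℝ) → ℝ := fun z => ∑ r ∈ R,
    max (lo * (monom z r.1 * (lp n r.2 - lp n r.1))) (hi * (monom z r.1 * (lp n r.2 - lp n r.1)))
    with hworst
  have hwc : Continuous worst := by
    refine continuous_finsetSum _ fun r _ => ?_
    have := monom_continuous (d := d) r.1
    fun_prop
  have hwy : worst y < 0 := by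
    classical
    have := hn (fun r => if 0 ≤ monom y r.1 * (lp n r.2 - lp n r.1) then hi else lo)
      (fun r _ => by dsimp only; split_ifs <;> simp [hlohi])
    rw [pair_massAction] at this
    refine lt_of_le_of_lt (Finset.sum_le_sum fun r _ => ?_) this
    rw [mul_assoc]
    split_ifs with hs
    · exact max_le (mul_le_mul_of_nonneg_right hlohi hs) le_rfl
    · exact max_le le_rfl (mul_le_mul_of_nonpos_right hlohi (not_le.1 hs).le)
  have hder : ∀ k z, Rates R lo hi k → ∑ i, n i * massAction R k z i ≤ worst z := by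
    intro k z hk
    rw [pair_massAction]
    refine Finset.sum_le_sum fun r hr => ?_
    rw [mul_assoc]
    rcases le_or_gt 0 (monom z r.1 * (lp n r.2 - lp n r.1)) with hs | hs
    · exact le_trans (mul_le_mul_of_nonneg_right (hk r hr).2 hs) (le_max_right _ _)
    · exact le_trans (mul_le_mul_of_nonpos_right (hk r hr).1 hs.le) (le_max_left _ _)
  set η := -worst y / 2 with hη
  have hη0 : 0 < η := by linarith
  obtain ⟨δ, hδ, hball⟩ := Metric.eventually_nhds_iff.1
    (hwc.continuousAt.eventually (eventually_lt_nhds (show worst y < -η by linarith)))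
  set h' := δ / (2 * (V + 1)) with hh
  have hh0 : 0 < h' := by positivity
  have hseq : ∀ m : ℕ, ∃ t, (m : ℝ) + h' ≤ t ∧ dist (x t) y < min (δ / 2) (1 / ((m : ℝ) + 1)) := by
    intro m
    have := mapClusterPt_iff_frequently.1 hy (Metric.ball y (min (δ / 2) (1 / ((m : ℝ) + 1))))
      (Metric.ball_mem_nhds _ (lt_min (by positivity) (by positivity)))
    exact Filter.frequently_atTop.1 this ((m : ℝ) + h')
  choose τ hτ1 hτ2 using hseq
  have hlip : ∀ s t, 0 ≤ s → 0 ≤ t → ‖x t - x s‖ ≤ V * ‖t - s‖ := by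
    intro s t hs ht
    choose! k hk hkd using h
    exact Convex.norm_image_sub_le_of_norm_hasDerivWithin_le (s := Ici (0 : ℝ))
      (f' := fun u => massAction R (k u) (x u)) hkd
      (fun u hu => hV _ (hxB u hu) _ (hk u hu)) (convex_Ici 0) hs ht
  have hstep : ∀ m : ℕ, ∑ i, n i * x (τ m) i + η * h' ≤ ∑ i, n i * x (τ m - h') i := by
    intro m
    have hτ0 : h' ≤ τ m := by linarith [hτ1 m, show (0 : ℝ) ≤ (m : ℝ) from Nat.cast_nonneg m]
    have hsub : Icc (τ m - h') (τ m) ⊆ Ici 0 := fun u hu => show 0 ≤ u by linarith [hu.1]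
    have hclose : ∀ u ∈ Icc (τ m - h') (τ m), dist (x u) y < δ := by
      intro u hu
      have h1 := hlip (τ m) u (hsub (right_mem_Icc.2 (by linarith))) (hsub hu)
      have h2 : V * ‖u - τ m‖ ≤ V * h' := by
        refine mul_le_mul_of_nonneg_left ?_ hV0
        rw [Real.norm_eq_abs, abs_le]
        constructor <;> linarith [hu.1, hu.2]
      have h3 : V * h' ≤ δ / 2 := by
        have : (V + 1) * h' = δ / 2 := by rw [hh]; field_simp
        linarith
      have h4 := dist_triangle (x u) (x (τ m)) y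
      rw [dist_eq_norm (x u) (x (τ m))] at h4
      linarith [lt_of_lt_of_le (hτ2 m) (min_le_left _ _)]
    choose! k hk hkd using h
    have hanti : AntitoneOn (fun u => (∑ i, n i * x u i) + η * u) (Icc (τ m - h') (τ m)) := by
      refine antitoneOn_of_hasDerivWithinAt_nonpos (convex_Icc _ _) ?_ (fun u hu => ?_)
        (f' := fun u => (∑ i, n i * massAction R (k u) (x u) i) + η * 1) (fun u hu => ?_)
      · refine ContinuousOn.add (fun u hu => ?_) (by fun_prop)
        exact ((hasDeriv_pair (hkd u (hsub hu)) n).continuousWithinAt).mono hsub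
      · have h5 := hsub (interior_subset hu)
        exact ((hasDeriv_pair (hkd u h5) n).mono (interior_subset.trans hsub)).add
          ((hasDerivWithinAt_id _ _).const_mul η)
      · have h5 := hsub (interior_subset hu)
        have h6 := hball (hclose u (interior_subset hu))
        have h7 := hder _ (x u) (hk u h5)
        linarith
    have := hanti (left_mem_Icc.2 (by linarith)) (right_mem_Icc.2 (by linarith)) (by linarith)
    simp only at this
    linarith
  obtain ⟨y', hy'B, φ, hφ, hlim⟩ := hB.tendsto_subseq (x := fun m => x (τ m - h'))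
    (fun m => hxB _ (by linarith [hτ1 m, show (0 : ℝ) ≤ (m : ℝ) from Nat.cast_nonneg m]))
  have hcast : Tendsto (fun m => (φ m : ℝ)) atTop atTop :=
    tendsto_natCast_atTop_atTop.comp hφ.tendsto_atTop
  have hs : Tendsto (fun m => τ (φ m) - h') atTop atTop :=
    tendsto_atTop_mono (fun m => by linarith [hτ1 (φ m)]) hcast
  refine ⟨y', ?_, ?_⟩
  · rw [mapClusterPt_iff_frequently]
    intro U hU
    exact hs.frequently (hlim.eventually hU).frequently
  · have hτy : Tendsto (fun m => x (τ (φ m))) atTop (𝓝 y) := by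
      rw [tendsto_iff_dist_tendsto_zero]
      refine squeeze_zero (fun m => dist_nonneg)
        (fun m => le_trans (hτ2 (φ m)).le (min_le_right _ _)) ?_
      exact (tendsto_one_div_add_atTop_nhds_zero_nat (𝕜 := ℝ)).comp hφ.tendsto_atTop
    have hlin : Continuous fun z : Fin d → ℝ => ∑ i, n i * z i := by fun_prop
    have := le_of_tendsto_of_tendsto' (((hlin.tendsto y).comp hτy).add_const (η * h'))
      ((hlin.tendsto y').comp hlim) (fun m => hstep (φ m))
    simp only [mul_sub, Finset.sum_sub_distrib]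
    have := mul_pos hη0 hh0
    linarith

/-- Uniform absorbing compact set. -/
theorem permanence {R : Finset ((Fin d → ℕ) × (Fin d → ℕ))} (hR : WeaklyReversible R) {lo : ℝ}
    (hlo : 0 < lo) (hi : ℝ) {c : Fin d → ℝ} (hc : ∀ i, 0 < c i) :
    ∃ K, IsCompact K ∧ K ⊆ posClass R c ∧ ∀ x : ℝ → Fin d → ℝ, x 0 ∈ posClass R c →
      Traj R lo hi (Ici 0) x → (∀ t, 0 ≤ t → x t ∈ posClass R c) ∧ ∀ᶠ t in atTop, x t ∈ K := by
  obtain ⟨U, R0, hU, hbd, hdec⟩ := stage_one hR hlo hi hc
  obtain ⟨M1, hM11, hM1⟩ := hbd R0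
  obtain ⟨G, r0, hr0, hG, hdec2, haway, hint⟩ := stage_two hR hlo hi hc hM11
  obtain ⟨e1, he1, he1y⟩ := haway r0 le_rfl
  set K := Set.pi univ (fun _ : Fin d => Icc (e1 / 2) (M1 + 1)) ∩ {y | Cons R c y} with hK
  have hKc : IsCompact K := (isCompact_univ_pi fun _ => isCompact_Icc).inter_right (cons_closed R c)
  refine ⟨K, hKc, ?_, ?_⟩
  · rintro y ⟨hy, hyc⟩
    exact ⟨fun i => by have := (hy i trivial).1; linarith, (cons_iff R c y).1 hyc⟩
  intro x hx0 htraj
  have hcx : Cons R c (x 0) := (cons_iff R c _).2 hx0.2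
  have hsub : ∀ t : ℝ, Icc (0:ℝ) t ⊆ Ici 0 := fun t => Icc_subset_Ici_self
  have hcons : ∀ t, 0 ≤ t → Cons R c (x t) := fun t ht =>
    (htraj.mono (hsub t)).cons hcx ⟨ht, le_rfl⟩
  have hpos : ∀ t, 0 ≤ t → ∀ i, 0 < x t i := fun t ht =>
    traj_pos hR hlo hi hc (htraj.mono (hsub t)) hx0.1 hcx ⟨ht, le_rfl⟩
  refine ⟨fun t ht => ⟨hpos t ht, (cons_iff R c _).1 (hcons t ht)⟩, ?_⟩
  rcases lt_or_ge hi lo with hlohi | hlohi
  · -- no reaction can have a rate
    have hR0 : R = ∅ := by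
      obtain ⟨k, hk, -⟩ := htraj 0 (Set.self_mem_Ici)
      refine Finset.eq_empty_of_forall_notMem fun r hr => ?_
      linarith [(hk r hr).1, (hk r hr).2]
    have hann : ∀ n, Annih R n := fun n r hr => by simp [hR0] at hr
    have hxc : ∀ t, 0 ≤ t → x t = c := by
      intro t ht
      funext i
      have := hcons t ht (Pi.single i 1) (hann _)
      simp [Pi.single_apply] at this
      linarith
    have hcK : c ∈ K := by
      have hcy : Cons R c c := fun n _ => by simp
      have hUc : U c ≤ R0 := by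
        by_contra hlt
        obtain ⟨n, -, hd⟩ := hdec c hc hcy (not_le.1 hlt)
        have := hd (fun _ => lo) (fun r hr => by simp [hR0] at hr)
        simp [massAction, hR0] at this
      refine ⟨fun i _ => ⟨?_, by linarith [hM1 c hc hUc i]⟩, hcy⟩
      have hGc : G r0 c ≤ 0 := by
        by_contra hlt
        obtain ⟨a, ha, hac⟩ : ∃ a, 0 < a ∧ ∀ i, a ≤ c i := by
          refine ⟨((∑ j, (c j)⁻¹) + 1)⁻¹, ?_, fun i => ?_⟩
          · have : 0 ≤ ∑ j, (c j)⁻¹ := Finset.sum_nonneg fun j _ => (inv_pos.2 (hc j)).le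
            positivity
          · refine inv_le_of_inv_le₀ (hc i) ?_
            have := Finset.single_le_sum (f := fun j => (c j)⁻¹)
              (fun j _ => (inv_pos.2 (hc j)).le) (Finset.mem_univ i)
            linarith
        obtain ⟨r1, hr1⟩ := hint a ha
        have hcont : ContinuousOn (fun r => G r c) (Icc r0 (max r0 r1)) :=
          hG.comp (continuous_id.prodMk continuous_const).continuousOn
            fun r hr => ⟨lt_of_lt_of_le hr0 hr.1, hc⟩
        obtain ⟨r, hr, hr0'⟩ := intermediate_value_Icc' (le_max_left r0 r1) hcont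
          (show (0:ℝ) ∈ Icc (G (max r0 r1) c) (G r0 c) from
            ⟨(hr1 _ (le_max_right _ _) c hac (hM1 c hc hUc)).le, (not_le.1 hlt).le⟩)
        obtain ⟨n, -, hd⟩ := hdec2 r hr.1 c hc (hM1 c hc hUc) hcy hr0'
        have := hd (fun _ => lo) (fun r hr => by simp [hR0] at hr)
        simp [massAction, hR0] at this
      linarith [he1y c hc hGc i]
    filter_upwards [eventually_ge_atTop (0:ℝ)] with t ht
    rw [hxc t ht]; exact hcK
  obtain ⟨ε, M, hε, hεM, hbound⟩ := apriori hR hlo hi hc hx0.1 hcx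
  set B := Set.pi univ (fun _ : Fin d => Icc ε M) ∩ {y | Cons R c y} with hB
  have hBc : IsCompact B := (isCompact_univ_pi fun _ => isCompact_Icc).inter_right (cons_closed R c)
  have hxB : ∀ t, 0 ≤ t → x t ∈ B := fun t ht =>
    ⟨fun i _ => hbound t x ht rfl (htraj.mono (hsub t)) (fun u hu => hpos u hu.1) t ⟨ht, le_rfl⟩ i,
      hcons t ht⟩
  set A := {y | MapClusterPt y atTop x} with hA
  have hAB : A ⊆ B := by
    intro y hy
    by_contra hyB
    obtain ⟨t, ht1, ht2⟩ := ((mapClusterPt_iff_frequently.1 hy _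
      (hBc.isClosed.isOpen_compl.mem_nhds hyB)).and_eventually (eventually_ge_atTop (0:ℝ))).exists
    exact ht1 (hxB t ht2)
  have hAc : IsCompact A := hBc.of_isClosed_subset isClosed_setOfPred_clusterPt hAB
  have hBpos : ∀ y ∈ B, ∀ i, 0 < y i := fun y hy i => lt_of_lt_of_le hε (hy.1 i trivial).1
  have hAU : ∀ y ∈ A, U y ≤ R0 := by
    intro y hy
    by_contra hlt
    obtain ⟨z, hz, hmax⟩ := hAc.exists_isMaxOn ⟨y, hy⟩ (hU.mono fun w hw => hBpos w (hAB hw))
    have hRz : R0 < U z := lt_of_lt_of_le (not_le.1 hlt) (hmax hy)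
    obtain ⟨n, hn, hd⟩ := hdec z (hBpos z (hAB hz)) (hAB hz).2 hRz
    obtain ⟨z', hz', hgt⟩ := cluster_step hlohi htraj hBc hxB hz hd
    have h1 := hn z' (hBpos z' (hAB hz'))
    have h2 : U z' ≤ U z := hmax hz'
    linarith
  have hAM : ∀ y ∈ A, ∀ i, y i ≤ M1 := fun y hy => hM1 y (hBpos y (hAB hy)) (hAU y hy)
  obtain ⟨r1, hr1⟩ := hint ε hε
  set R1 := max r0 r1
  have hAlow : ∀ y ∈ A, G r0 y < 0 := by
    by_contra hcon
    push Not at hcon
    obtain ⟨y0, hy0, hy0G⟩ := hcon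
    have hcont : ContinuousOn (fun w : ℝ × (Fin d → ℝ) => G w.1 w.2) (Icc r0 R1 ×ˢ A) :=
      hG.mono fun w hw => ⟨lt_of_lt_of_le hr0 hw.1.1, hBpos _ (hAB hw.2)⟩
    set Bad := (Icc r0 R1 ×ˢ A) ∩ (fun w : ℝ × (Fin d → ℝ) => G w.1 w.2) ⁻¹' Ici 0 with hBad
    have hBadc : IsCompact Bad := (isCompact_Icc.prod hAc).of_isClosed_subset
      (hcont.preimage_isClosed_of_isClosed (isClosed_Icc.prod hAc.isClosed) isClosed_Ici)
      Set.inter_subset_left
    obtain ⟨⟨r, z⟩, ⟨⟨hr, hz⟩, hGz⟩, hmax⟩ := hBadc.exists_isMaxOn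
      ⟨(r0, y0), ⟨⟨le_rfl, le_max_left _ _⟩, hy0⟩, hy0G⟩ continuous_fst.continuousOn
    have hrlt : r < R1 := by
      refine lt_of_le_of_ne hr.2 fun e => ?_
      have h1 := hr1 r (e ▸ le_max_right _ _) z (fun i => ((hAB hz).1 i trivial).1) (hAM z hz)
      have h2 : 0 ≤ G r z := hGz
      linarith
    have hle : ∀ w ∈ A, G r w ≤ 0 := by
      intro w hw
      have hc1 : ContinuousWithinAt (fun u => G u w) (Ioc r R1) r := by
        have : ContinuousOn (fun u => G u w) (Ioi 0) :=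
          hG.comp (continuous_id.prodMk continuous_const).continuousOn
            fun u hu => ⟨hu, hBpos _ (hAB hw)⟩
        exact (this r (lt_of_lt_of_le hr0 hr.1)).mono fun u hu =>
          lt_trans (lt_of_lt_of_le hr0 hr.1) hu.1
      have : NeBot (𝓝[Ioc r R1] r) := left_nhdsWithin_Ioc_neBot hrlt
      refine le_of_tendsto hc1 (eventually_nhdsWithin_of_forall fun u hu => ?_)
      by_contra hpos'
      have : u ≤ r := hmax (a := (u, w))
        ⟨⟨⟨le_trans hr.1 hu.1.le, hu.2⟩, hw⟩, (not_le.1 hpos').le⟩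
      linarith [hu.1]
    have hz0 : G r z = 0 := le_antisymm (hle z hz) hGz
    obtain ⟨n, hn, hd⟩ := hdec2 r hr.1 z (hBpos z (hAB hz)) (hAM z hz) (hAB hz).2 hz0
    obtain ⟨z', hz', hgt⟩ := cluster_step hlohi htraj hBc hxB hz hd
    have h1 := hn z' (hBpos z' (hAB hz'))
    linarith [hle z' hz']
  by_contra hev
  rw [Filter.not_eventually] at hev
  set O := ⋃ i : Fin d, ({y : Fin d → ℝ | y i ≤ e1 / 2} ∪ {y | M1 + 1 ≤ y i}) with hO
  have hOc : IsClosed O := isClosed_iUnion_of_finite fun i =>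
    (isClosed_le (continuous_apply i) continuous_const).union
      (isClosed_le continuous_const (continuous_apply i))
  have hfreq : ∃ᶠ t in atTop, x t ∈ B ∩ O := by
    refine (hev.and_eventually (eventually_ge_atTop (0:ℝ))).mono fun t ht => ⟨hxB t ht.2, ?_⟩
    by_contra hno
    simp only [hO, Set.mem_iUnion, not_exists, Set.mem_union, Set.mem_ofPred_eq, not_or,
      not_le] at hno
    exact ht.1 ⟨fun i _ => ⟨(hno i).1.le, (hno i).2.le⟩, hcons t ht.2⟩
  obtain ⟨y, hyBO, hy⟩ := (hBc.inter_right hOc).exists_mapClusterPt_of_frequently hfreq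
  obtain ⟨i, hi'⟩ := Set.mem_iUnion.1 hyBO.2
  rcases hi' with h1 | h1
  · change y i ≤ e1 / 2 at h1
    linarith [he1y y (hBpos y hyBO.1) (hAlow y hy).le i]
  · change M1 + 1 ≤ y i at h1
    linarith [hAM y hy i]

end Vale.Agent.P072
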