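import Vale.Agent.P072.Dynamics

/-!
# Global existence and uniqueness
-/

noncomputable section

open Finset Real Set Filter Topology NNReal
open scoped BigOperators

namespace Vale.Agent.P072

variable {d : ℕ}

lemma massAction_contDiff (R : Finset ((Fin d → ℕ) × (Fin d → ℕ)))
    (k : ((Fin d → ℕ) × (Fin d → ℕ)) → ℝ) : ContDiff ℝ 1 (massAction R k) := by
  unfold massAction monom
  fun_prop

lemma massAction_lipschitz (R : Finset ((Fin d → ℕ) × (Fin d → ℕ)))
    (k : ((Fin d → ℕ) × (Fin d → ℕ)) → ℝ) (a b : ℝ) :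
    ∃ L, LipschitzOnWith L (massAction R k) (Set.pi univ fun _ : Fin d => Icc a b) :=
  (massAction_contDiff R k).contDiffOn.exists_lipschitzOnWith one_ne_zero
    (convex_pi fun _ _ => convex_Icc a b) (isCompact_univ_pi fun _ => isCompact_Icc)

/-- Coordinatewise truncation to `[a, b]`. -/
def clamp (a b : ℝ) (z : Fin d → ℝ) : Fin d → ℝ := fun i => max a (min (z i) b)

lemma clamp_lipschitz (a b : ℝ) : LipschitzWith 1 (clamp (d := d) a b) := by
  refine LipschitzWith.of_dist_le_mul fun z w => ?_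
  rw [NNReal.coe_one, one_mul]
  refine (dist_pi_le_iff dist_nonneg).2 fun i => le_trans ?_ (dist_le_pi_dist z w i)
  simp only [clamp, Real.dist_eq]
  refine le_trans (abs_max_sub_max_le_abs _ _ a |> fun h => by
    simpa [max_comm] using h) ?_
  exact abs_min_sub_min_le_max (z i) b (w i) b |>.trans (by simp)

lemma clamp_mem {a b : ℝ} (h : a ≤ b) (z : Fin d → ℝ) :
    clamp a b z ∈ Set.pi univ (fun _ : Fin d => Icc a b) :=
  fun _ _ => ⟨le_max_left _ _, max_le h (min_le_right _ _)⟩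

lemma clamp_of_mem {a b : ℝ} {z : Fin d → ℝ} (h : ∀ i, a ≤ z i ∧ z i ≤ b) : clamp a b z = z :=
  funext fun i => by simp [clamp, min_eq_left (h i).2, max_eq_right (h i).1]

/-- A bounded globally Lipschitz field has solutions on `[0, ∞)`. -/
lemma global_solution {E : Type*} [NormedAddCommGroup E] [NormedSpace ℝ E] [CompleteSpace E]
    (g : E → E) {L : ℝ≥0} (hg : LipschitzWith L g) {C : ℝ≥0} (hC : ∀ z, ‖g z‖ ≤ C) (x0 : E) :
    ∃ x : ℝ → E, x 0 = x0 ∧ ∀ t ∈ Ici (0:ℝ), HasDerivWithinAt x (g (x t)) (Ici 0) t := by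
  have hex : ∀ N : ℕ, ∃ α : ℝ → E, α 0 = x0 ∧
      ∀ t ∈ Icc (0:ℝ) N, HasDerivWithinAt α (g (α t)) (Icc (0:ℝ) N) t := by
    intro N
    have hmem : (0:ℝ) ∈ Icc (0:ℝ) (N:ℝ) := ⟨le_rfl, Nat.cast_nonneg N⟩
    have hpl : IsPicardLindelof (fun _ => g) (tmin := 0) (tmax := (N:ℝ)) ⟨0, hmem⟩ x0
        (C * N) 0 C L :=
      { lipschitzOnWith := fun t _ => hg.lipschitzOnWith
        continuousOn := fun z _ => continuousOn_const
        norm_le := fun t _ z _ => hC z
        mul_max_le := by simp }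
    exact hpl.exists_eq_forall_mem_Icc_hasDerivWithinAt₀
  choose α hα0 hα using hex
  have huniq : ∀ M N : ℕ, M ≤ N → EqOn (α M) (α N) (Icc (0:ℝ) M) := by
    intro M N hMN
    have hsub : Icc (0:ℝ) M ⊆ Icc (0:ℝ) N := Icc_subset_Icc le_rfl (by exact_mod_cast hMN)
    refine ODE_solution_unique (v := fun _ => g) (fun _ => hg)
      (fun t ht => (hα M t ht).continuousWithinAt) (fun t ht => ?_)
      (fun t ht => ((hα N t (hsub ht)).mono hsub).continuousWithinAt) (fun t ht => ?_)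
      (by rw [hα0, hα0])
    · exact (hα M t (Ico_subset_Icc_self ht)).mono_of_mem_nhdsWithin (Icc_mem_nhdsGE_of_mem ht)
    · exact ((hα N t (hsub (Ico_subset_Icc_self ht))).mono hsub).mono_of_mem_nhdsWithin
        (Icc_mem_nhdsGE_of_mem ht)
  refine ⟨fun t => α (⌈t⌉₊ + 1) t, by simp [hα0], fun t ht => ?_⟩
  obtain ⟨N, hN, htN⟩ : ∃ N : ℕ, ⌈t⌉₊ + 1 ≤ N ∧ t + 1 < (N : ℝ) :=
    ⟨⌈t⌉₊ + 2, by omega, by push_cast; linarith [Nat.le_ceil t]⟩
  have ht' : t ∈ Icc (0:ℝ) N := ⟨ht, by linarith⟩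
  have heq : ∀ u, 0 ≤ u → u < t + 1 → α (⌈u⌉₊ + 1) u = α N u := by
    intro u hu hut
    have h1 : u ≤ ((⌈u⌉₊ + 1 : ℕ) : ℝ) := by push_cast; linarith [Nat.le_ceil u]
    rcases le_total (⌈u⌉₊ + 1) N with h | h
    · exact huniq _ _ h ⟨hu, h1⟩
    · exact (huniq _ _ h ⟨hu, by linarith⟩).symm
  have h2 : HasDerivWithinAt (α N) (g (α N t)) (Ici 0) t := by
    refine (hα N t ht').mono_of_mem_nhdsWithin ?_
    exact mem_nhdsWithin.2 ⟨Iio (t + 1), isOpen_Iio, show t < t + 1 by linarith,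
      fun u hu => ⟨hu.2, by have := hu.1; simp at this; linarith⟩⟩
  have hev : (fun u => α (⌈u⌉₊ + 1) u) =ᶠ[𝓝[Ici (0:ℝ)] t] α N := by
    filter_upwards [self_mem_nhdsWithin,
      mem_nhdsWithin_of_mem_nhds (Iio_mem_nhds (show t < t + 1 by linarith))] with u hu hu'
    exact heq u hu hu'
  rw [show (fun u => α (⌈u⌉₊ + 1) u) t = α N t from heq t ht (by linarith)]
  exact h2.congr_of_eventuallyEq hev (heq t ht (by linarith))

/-- Global existence of positive solutions, and uniqueness among all solutions. -/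
theorem exists_unique_solution {R : Finset ((Fin d → ℕ) × (Fin d → ℕ))} (hR : WeaklyReversible R)
    (k : ((Fin d → ℕ) × (Fin d → ℕ)) → ℝ) {lo hi : ℝ} (hlo : 0 < lo) (hk : Rates R lo hi k)
    {c : Fin d → ℝ} (hc : ∀ i, 0 < c i) {x0 : Fin d → ℝ} (hx0 : x0 ∈ posClass R c) :
    ∃ x : ℝ → Fin d → ℝ, x 0 = x0 ∧
      (∀ t ∈ Ici (0:ℝ), HasDerivWithinAt x (massAction R k (x t)) (Ici 0) t) ∧
      (∀ t, 0 ≤ t → x t ∈ posClass R c) ∧
      ∀ (b : ℝ) (y : ℝ → Fin d → ℝ), y 0 = x0 →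
        (∀ t ∈ Ico 0 b, HasDerivWithinAt y (massAction R k (y t)) (Ico 0 b) t) →
        ∀ t ∈ Ico 0 b, y t = x t := by
  have hcx : Cons R c x0 := (cons_iff R c _).2 hx0.2
  obtain ⟨ε, M, hε, hεM, hbound⟩ := apriori hR hlo hi hc hx0.1 hcx
  have hab : ε / 2 ≤ M + 1 := by linarith
  obtain ⟨L, hL⟩ := massAction_lipschitz R k (ε / 2) (M + 1)
  set g := fun z => massAction R k (clamp (ε / 2) (M + 1) z) with hg
  have hgL : LipschitzWith (L * 1) g := lipschitzOnWith_univ.1
    (hL.comp (clamp_lipschitz _ _).lipschitzOnWith fun z _ => clamp_mem hab z)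
  obtain ⟨C, hC⟩ := (isCompact_univ_pi fun _ : Fin d => isCompact_Icc (a := ε / 2) (b := M + 1)
    ).exists_bound_of_continuousOn (massAction_contDiff R k).continuous.continuousOn
  obtain ⟨x, hx, hxd⟩ := global_solution g hgL (C := C.toNNReal)
    (fun z => le_trans (hC _ (clamp_mem hab z)) (Real.le_coe_toNNReal C)) x0
  have hxc : ContinuousOn x (Ici 0) := fun t ht => (hxd t ht).continuousWithinAt
  -- the truncated solution never leaves the open box
  have hbox : ∀ t, 0 ≤ t → ∀ i, ε / 2 < x t i ∧ x t i < M + 1 := by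
    intro t ht
    by_contra hcon
    set O := ⋃ i : Fin d, ({y : Fin d → ℝ | y i ≤ ε / 2} ∪ {y | M + 1 ≤ y i})
    have hOc : IsClosed O := isClosed_iUnion_of_finite fun i =>
      (isClosed_le (continuous_apply i) continuous_const).union
        (isClosed_le continuous_const (continuous_apply i))
    have hmemO : ∀ z, z ∈ O ↔ ¬ ∀ i, ε / 2 < z i ∧ z i < M + 1 := by
      intro z
      simp only [O, Set.mem_iUnion, Set.mem_union, Set.mem_ofPred_eq, not_forall, not_and_or,
        not_lt]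
    set A := Icc 0 t ∩ x ⁻¹' O with hA
    have hAc : IsClosed A :=
      (hxc.mono Icc_subset_Ici_self).preimage_isClosed_of_isClosed isClosed_Icc hOc
    have hAb : BddBelow A := ⟨0, fun u hu => hu.1.1⟩
    obtain ⟨hmem, hj⟩ := hAc.csInf_mem ⟨t, ⟨ht, le_rfl⟩, (hmemO _).2 hcon⟩ hAb
    set T := sInf A
    have hbefore : ∀ u, 0 ≤ u → u < T → ∀ i, ε / 2 < x u i ∧ x u i < M + 1 := by
      intro u hu huT
      by_contra hc
      exact absurd (csInf_le hAb ⟨⟨hu, by linarith [hmem.2]⟩, (hmemO _).2 hc⟩) (not_le.2 huT)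
    have hstrict : ∀ u, 0 ≤ u → (∀ v, 0 ≤ v → v ≤ u → ∀ i, ε / 2 ≤ x v i ∧ x v i ≤ M + 1) →
        ∀ i, ε ≤ x u i ∧ x u i ≤ M := by
      intro u hu hin
      refine hbound u x hu hx (fun v hv => ⟨k, hk, ?_⟩)
        (fun v hv i => by linarith [(hin v hv.1 hv.2 i).1]) u ⟨hu, le_rfl⟩
      have := (hxd v hv.1).mono (show Icc 0 u ⊆ Ici 0 from fun w hw => hw.1)
      simp only [hg] at this
      rwa [clamp_of_mem (hin v hv.1 hv.2)] at this
    rcases eq_or_lt_of_le hmem.1 with e | e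
    · have h1 := hbound 0 (fun _ => x0) le_rfl rfl (fun v hv => ⟨k, hk, ?_⟩) (fun _ _ => hx0.1)
        0 ⟨le_rfl, le_rfl⟩
      · refine (hmemO _).1 hj fun i => ?_
        rw [← e, hx]
        constructor <;> linarith [(h1 i).1, (h1 i).2]
      · exact HasFDerivWithinAt.of_subsingleton (by simp [Set.subsingleton_singleton])
    · have hclosed : ∀ v, 0 ≤ v → v ≤ T → ∀ i, ε / 2 ≤ x v i ∧ x v i ≤ M + 1 := by
        intro v hv hvT i
        rcases eq_or_lt_of_le hvT with e' | e'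
        · subst e'
          have := right_nhdsWithin_Ico_neBot e
          have hcont : ContinuousWithinAt (fun u => x u i) (Ico 0 T) T :=
            (((continuous_apply i).comp_continuousOn hxc) T hmem.1).mono
              fun u hu => hu.1
          exact ⟨ge_of_tendsto hcont
              (eventually_nhdsWithin_of_forall fun u hu => (hbefore u hu.1 hu.2 i).1.le),
            le_of_tendsto hcont
              (eventually_nhdsWithin_of_forall fun u hu => (hbefore u hu.1 hu.2 i).2.le)⟩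
        · exact ⟨(hbefore v hv e' i).1.le, (hbefore v hv e' i).2.le⟩
      refine (hmemO _).1 hj fun i => ?_
      have := hstrict T hmem.1 hclosed i
      constructor <;> linarith [this.1, this.2]
  have hxf : ∀ t ∈ Ici (0:ℝ), HasDerivWithinAt x (massAction R k (x t)) (Ici 0) t := by
    intro t ht
    have := hxd t ht
    simp only [hg] at this
    rwa [clamp_of_mem fun i => ⟨(hbox t ht i).1.le, (hbox t ht i).2.le⟩] at this
  refine ⟨x, hx, hxf, fun t ht => ⟨fun i => by linarith [(hbox t ht i).1], ?_⟩, ?_⟩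
  · have htraj : Traj R lo hi (Icc 0 t) x := fun u hu =>
      ⟨k, hk, (hxf u hu.1).mono Icc_subset_Ici_self⟩
    exact (cons_iff R c _).1 (htraj.cons (hx ▸ hcx) ⟨ht, le_rfl⟩)
  · intro b y hy hyd t ht
    have hsub : Icc 0 t ⊆ Ico 0 b := fun u hu => ⟨hu.1, lt_of_le_of_lt hu.2 ht.2⟩
    have hyc : ContinuousOn y (Icc 0 t) := fun u hu =>
      ((hyd u (hsub hu)).mono hsub).continuousWithinAt
    have hxc' : ContinuousOn x (Icc 0 t) := hxc.mono Icc_subset_Ici_self
    obtain ⟨Cy, hCy⟩ := isCompact_Icc.exists_bound_of_continuousOn hyc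
    obtain ⟨Cx, hCx⟩ := isCompact_Icc.exists_bound_of_continuousOn hxc'
    set D := max Cx Cy
    obtain ⟨L', hL'⟩ := massAction_lipschitz R k (-D) D
    have hin : ∀ z : Fin d → ℝ, ‖z‖ ≤ D → z ∈ Set.pi univ fun _ : Fin d => Icc (-D) D := by
      intro z hz i _
      have := le_trans (norm_le_pi_norm z i) hz
      rw [Real.norm_eq_abs, abs_le] at this
      exact this
    exact ODE_solution_unique_of_mem_Icc_right (v := fun _ => massAction R k)
      (s := fun _ => Set.pi univ fun _ : Fin d => Icc (-D) D) (fun _ _ => hL') hyc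
      (fun u hu => ((hyd u (hsub (Ico_subset_Icc_self hu))).mono hsub).mono_of_mem_nhdsWithin
        (Icc_mem_nhdsGE_of_mem hu))
      (fun u hu => hin _ (le_trans (hCy u (Ico_subset_Icc_self hu)) (le_max_right _ _))) hxc'
      (fun u hu => ((hxf u hu.1).mono (Ici_subset_Ici.2 hu.1)))
      (fun u hu => hin _ (le_trans (hCx u (Ico_subset_Icc_self hu)) (le_max_left _ _)))
      (by rw [hy, hx]) ⟨ht.1, le_rfl⟩

end Vale.Agent.P072
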