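import Mathlib

/-!
# A potential with exact flattening for finitely many bounded integer forms

For `k` coordinates we build a sup of affine functions
`U x = sup over admissible n of (sum x_i n_i - cost n)` such that at a maximiser `n` every bounded
integer linear form that is nonzero on `n` has the same sign, with a large margin, on `log x`,
while `log x - n` stays bounded.
-/

noncomputable section

open Finset Real
open scoped BigOperators

namespace Vale.Agent.P072

/-- Size bounds of forms, closed under one elimination step per level. -/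
def bd (B0 : ℕ) : ℕ → ℕ
  | 0 => max B0 1
  | m + 1 => 2 * bd B0 m ^ 2

lemma one_le_bd (B0 m : ℕ) : 1 ≤ bd B0 m := by
  induction m with
  | zero => simp [bd]
  | succ m ih => simp only [bd]; nlinarith

lemma bd_le_succ (B0 m : ℕ) : bd B0 m ≤ bd B0 (m + 1) := by
  have := one_le_bd B0 m
  simp only [bd]; nlinarith

lemma bd_mono (B0 : ℕ) : Monotone (bd B0) := monotone_nat_of_le_succ (bd_le_succ B0)

lemma le_bd (B0 m : ℕ) : B0 ≤ bd B0 m :=
  le_trans (by simp [bd]) (bd_mono B0 (Nat.zero_le m))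

variable {k : ℕ}

/-- Pairing of a real vector with an integer vector. -/
def dot (n : Fin k → ℝ) (z : Fin k → ℤ) : ℝ := ∑ i, n i * (z i : ℝ)

/-- Binary rank of the pinned positions before `j`. -/
def rk (p : Fin k → Bool) (j : ℕ) : ℕ :=
  ∑ i : Fin k, if (i : ℕ) < j ∧ p i = true then 2 ^ (k - 1 - (i : ℕ)) else 0

/-- The largest form bound. -/
def bigB (k B0 : ℕ) : ℝ := (bd B0 k : ℝ)

/-- Base of the hierarchy. -/
def kc (k B0 : ℕ) : ℝ := (2 * k * bigB k B0 + 6) * bigB k B0 ^ (k + 1)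

/-- The gap demanded at position `j`. -/
def gap (B0 : ℕ) (T : ℝ) (p : Fin k → Bool) (j : Fin k) : ℝ :=
  T * kc k B0 ^ (rk p j + 2 ^ (k - 1 - (j : ℕ)))

/-- The scale of a pattern. -/
def gam (B0 : ℕ) (T : ℝ) (p : Fin k → Bool) : ℝ := T * kc k B0 ^ rk p k

/-- An upper bound for all gaps. -/
def hmax (k B0 : ℕ) (T : ℝ) : ℝ := T * kc k B0 ^ (2 ^ k)

/-- Integer forms available at position `j`. -/
def Form (B0 : ℕ) (s : Fin k → Fin k) (j : Fin k) (z : Fin k → ℤ) : Prop :=
  (∀ i, |z i| ≤ (bd B0 (k - 1 - (j : ℕ)) : ℤ)) ∧ z (s j) ≠ 0 ∧ ∀ i, j < i → z (s i) = 0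

/-- Admissible points. -/
structure Adm (B0 : ℕ) (cap : Bool) (T : ℝ) (s : Fin k → Fin k) (p : Fin k → Bool)
    (n : Fin k → ℝ) : Prop where
  bij : Function.Bijective s
  anti : ∀ i j, i ≤ j → n (s j) ≤ n (s i)
  capped : cap = true → ∀ i, n i ≤ 0
  pin : ∀ j, p j = true → ∃ z, Form B0 s j z ∧ dot n z = 0
  hole : ∀ j, p j = false → ∀ z, Form B0 s j z → |(z (s j) : ℝ)| * gap B0 T p j ≤ |dot n z|

/-- Shift at a position. -/
def shift (B0 : ℕ) (T : ℝ) (p : Fin k → Bool) (j : Fin k) : ℝ :=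
  if p j = true then gap B0 T p j else 0

/-- Cost of an admissible point. -/
def cost (B0 : ℕ) (T : ℝ) (s : Fin k → Fin k) (p : Fin k → Bool) (n : Fin k → ℝ) : ℝ :=
  ∑ j, exp (n (s j) - shift B0 T p j)

/-- The affine function of `x` attached to an admissible point. -/
def val (B0 : ℕ) (T : ℝ) (x : Fin k → ℝ) (s : Fin k → Fin k) (p : Fin k → Bool)
    (n : Fin k → ℝ) : ℝ :=
  (∑ i, x i * n i) - cost B0 T s p n

/-- Maximisers. -/
def IsBest (B0 : ℕ) (cap : Bool) (T : ℝ) (x : Fin k → ℝ) (s : Fin k → Fin k)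
    (p : Fin k → Bool) (n : Fin k → ℝ) : Prop :=
  Adm B0 cap T s p n ∧
    ∀ s' p' n', Adm B0 cap T s' p' n' → val B0 T x s' p' n' ≤ val B0 T x s p n

/-! ## Elementary facts about ranks and gaps -/

lemma rk_succ (p : Fin k → Bool) (j : Fin k) :
    rk p ((j : ℕ) + 1) = rk p j + (if p j = true then 2 ^ (k - 1 - (j : ℕ)) else 0) := by
  unfold rk
  have : (fun i : Fin k => if (i : ℕ) < (j : ℕ) + 1 ∧ p i = true then 2 ^ (k - 1 - (i : ℕ)) else 0)
      = fun i : Fin k => (if (i : ℕ) < (j : ℕ) ∧ p i = true then 2 ^ (k - 1 - (i : ℕ)) else 0)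
        + (if i = j then (if p j = true then 2 ^ (k - 1 - (j : ℕ)) else 0) else 0) := by
    funext i
    by_cases h : i = j
    · subst h; simp
    · have h' : (i : ℕ) ≠ (j : ℕ) := fun e => h (Fin.ext e)
      have : ((i : ℕ) < (j : ℕ) + 1) ↔ ((i : ℕ) < (j : ℕ)) := by omega
      simp [h, this]
  rw [this, Finset.sum_add_distrib]
  simp

lemma rk_mono (p : Fin k → Bool) {a b : ℕ} (h : a ≤ b) : rk p a ≤ rk p b := by
  unfold rk
  refine Finset.sum_le_sum fun i _ => ?_
  by_cases hi : (i : ℕ) < a ∧ p i = true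
  · rw [if_pos hi, if_pos ⟨lt_of_lt_of_le hi.1 h, hi.2⟩]
  · rw [if_neg hi]; exact Nat.zero_le _

lemma rk_pow_anti (p : Fin k → Bool) {a b : ℕ} (hab : a ≤ b) (hb : b ≤ k) :
    rk p b + 2 ^ (k - b) ≤ rk p a + 2 ^ (k - a) := by
  induction b, hab using Nat.le_induction with
  | base => exact le_rfl
  | succ b hab ih =>
    have h1 := rk_succ p ⟨b, by omega⟩
    have h2 : k - b = (k - 1 - b) + 1 := by omega
    have h3 : k - (b + 1) = k - 1 - b := by omega
    have h4 := ih (by omega)
    simp only at h1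
    rw [h2, pow_succ] at h4
    rw [h1, h3]
    split_ifs <;> omega

lemma rk_congr {p q : Fin k → Bool} {j : ℕ} (h : ∀ i : Fin k, (i : ℕ) < j → p i = q i) :
    rk p j = rk q j := by
  unfold rk
  refine Finset.sum_congr rfl fun i _ => ?_
  by_cases hi : (i : ℕ) < j
  · rw [h i hi]
  · simp [hi]

lemma rk_zero (p : Fin k → Bool) : rk p 0 = 0 := by simp [rk]

lemma one_le_bigB (k B0 : ℕ) : 1 ≤ bigB k B0 := by
  unfold bigB; exact_mod_cast one_le_bd B0 k

lemma six_le_kc (k B0 : ℕ) : 6 ≤ kc k B0 := by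
  have h := one_le_bigB k B0
  have h1 : (6 : ℝ) ≤ 2 * k * bigB k B0 + 6 := by
    have : 0 ≤ 2 * (k : ℝ) * bigB k B0 := by positivity
    linarith
  calc (6 : ℝ) = 6 * 1 := by ring
    _ ≤ kc k B0 := mul_le_mul h1 (one_le_pow₀ h) zero_le_one (by linarith)

lemma one_le_kc (k B0 : ℕ) : 1 ≤ kc k B0 := by linarith [six_le_kc k B0]

lemma le_gam (B0 : ℕ) {T : ℝ} (hT : 0 ≤ T) (p : Fin k → Bool) : T ≤ gam B0 T p :=
  le_mul_of_one_le_right hT (one_le_pow₀ (one_le_kc k B0))

lemma gap_le_hmax (B0 : ℕ) {T : ℝ} (hT : 0 ≤ T) (p : Fin k → Bool) (j : Fin k) :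
    gap B0 T p j ≤ hmax k B0 T := by
  refine mul_le_mul_of_nonneg_left (pow_le_pow_right₀ (one_le_kc k B0) ?_) hT
  have h := rk_pow_anti p (Nat.zero_le (j : ℕ)) j.2.le
  rw [rk_zero, zero_add, Nat.sub_zero] at h
  refine le_trans ?_ h
  exact Nat.add_le_add_left (Nat.pow_le_pow_right (by norm_num) (by omega)) _

lemma gam_le_hmax (B0 : ℕ) {T : ℝ} (hT : 0 ≤ T) (p : Fin k → Bool) :
    gam B0 T p ≤ hmax k B0 T := by
  refine mul_le_mul_of_nonneg_left (pow_le_pow_right₀ (one_le_kc k B0) ?_) hT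
  have h := rk_pow_anti p (Nat.zero_le k) le_rfl
  rw [rk_zero, zero_add, Nat.sub_zero] at h
  exact le_trans (Nat.le_add_right _ _) h

lemma gap_le_gam (B0 : ℕ) {T : ℝ} (hT : 0 ≤ T) {p : Fin k → Bool} {j : Fin k}
    (hj : p j = true) : gap B0 T p j ≤ gam B0 T p := by
  refine mul_le_mul_of_nonneg_left (pow_le_pow_right₀ (one_le_kc k B0) ?_) hT
  have := rk_succ p j
  rw [if_pos hj] at this
  rw [← this]
  exact rk_mono p j.2

lemma gam_mul_le_gap (B0 : ℕ) {T : ℝ} (hT : 0 ≤ T) {p : Fin k → Bool} {j : Fin k}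
    (hj : p j = false) : kc k B0 * gam B0 T p ≤ gap B0 T p j := by
  have h := rk_pow_anti p (show (j : ℕ) + 1 ≤ k from j.2) le_rfl
  have h1 := rk_succ p j
  rw [if_neg (by simp [hj]), add_zero] at h1
  rw [h1, Nat.sub_self, pow_zero] at h
  have h3 : k - ((j : ℕ) + 1) = k - 1 - (j : ℕ) := by omega
  rw [h3] at h
  unfold gam gap
  calc kc k B0 * (T * kc k B0 ^ rk p k) = T * kc k B0 ^ (rk p k + 1) := by ring
    _ ≤ T * kc k B0 ^ (rk p j + 2 ^ (k - 1 - (j : ℕ))) :=
      mul_le_mul_of_nonneg_left (pow_le_pow_right₀ (one_le_kc k B0) h) hT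

lemma le_gap (B0 : ℕ) {T : ℝ} (hT : 0 ≤ T) (p : Fin k → Bool) (j : Fin k) :
    T ≤ gap B0 T p j :=
  le_mul_of_one_le_right hT (one_le_pow₀ (one_le_kc k B0))

lemma shift_nonneg (B0 : ℕ) {T : ℝ} (hT : 0 ≤ T) (p : Fin k → Bool) (j : Fin k) :
    0 ≤ shift B0 T p j := by
  unfold shift
  split_ifs
  · exact le_trans hT (le_gap B0 hT p j)
  · exact le_rfl

lemma shift_le_gam (B0 : ℕ) {T : ℝ} (hT : 0 ≤ T) (p : Fin k → Bool) (j : Fin k) :
    shift B0 T p j ≤ gam B0 T p := by
  unfold shift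
  split_ifs with h
  · exact gap_le_gam B0 hT h
  · exact le_trans hT (le_gam B0 hT p)

/-! ## Separation -/

lemma sep_aux {B0 : ℕ} {cap : Bool} {T : ℝ} (hT : 0 ≤ T) {s : Fin k → Fin k} {p : Fin k → Bool}
    {n : Fin k → ℝ} (h : Adm B0 cap T s p n) :
    ∀ j, j ≤ k → ∀ z : Fin k → ℤ, (∀ i : Fin k, j ≤ (i : ℕ) → z (s i) = 0) →
      (∀ i, |z i| ≤ (bd B0 (k - j) : ℤ)) → dot n z ≠ 0 →
      kc k B0 * gam B0 T p ≤ |dot n z| * bigB k B0 ^ j := by
  intro j
  induction j with
  | zero =>
    intro _ z hz _ hne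
    exfalso
    apply hne
    refine Finset.sum_eq_zero fun i _ => ?_
    obtain ⟨l, rfl⟩ := h.bij.2 i
    simp [hz l (Nat.zero_le _)]
  | succ j ih =>
    intro hjk z hz hb hne
    have hjk' : j < k := hjk
    set J : Fin k := ⟨j, hjk'⟩
    have hB := one_le_bigB k B0
    have hidx : k - j = (k - (j + 1)) + 1 := by omega
    have hidx' : k - 1 - (J : ℕ) = k - (j + 1) := by simp [J]; omega
    by_cases hJ : z (s J) = 0
    · have hz' : ∀ i : Fin k, j ≤ (i : ℕ) → z (s i) = 0 := by
        intro i hi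
        rcases eq_or_lt_of_le hi with e | e
        · have : i = J := Fin.ext e.symm
          rw [this]; exact hJ
        · exact hz i e
      have := ih hjk'.le z hz'
        (fun i => le_trans (hb i) (by exact_mod_cast bd_mono B0 (by omega))) hne
      refine le_trans this (mul_le_mul_of_nonneg_left ?_ (abs_nonneg _))
      exact pow_le_pow_right₀ hB (by omega)
    have hform : Form B0 s J z := by
      refine ⟨fun i => by rw [hidx']; exact hb i, hJ, fun i hi => hz i ?_⟩
      exact hi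
    rcases Bool.eq_false_or_eq_true (p J) with hp | hp
    · obtain ⟨z', ⟨hb', hne', hz'⟩, hdot⟩ := h.pin J hp
      rw [hidx'] at hb'
      set q : Fin k → ℤ := fun i => z' (s J) * z i - z (s J) * z' i with hq
      have hqz : ∀ i : Fin k, j ≤ (i : ℕ) → q (s i) = 0 := by
        intro i hi
        rcases eq_or_lt_of_le hi with e | e
        · have : i = J := Fin.ext e.symm
          simp [hq, this, mul_comm]
        · have h1 := hz i e
          have h2 := hz' i e
          simp [hq, h1, h2]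
      have hqb : ∀ i, |q i| ≤ (bd B0 (k - j) : ℤ) := by
        intro i
        rw [hidx]
        simp only [bd, hq]
        push_cast
        have e1 : |z' (s J) * z i| ≤ (bd B0 (k - (j + 1)) : ℤ) ^ 2 := by
          rw [abs_mul, sq]
          exact mul_le_mul (hb' _) (hb _) (abs_nonneg _) (Int.natCast_nonneg _)
        have e2 : |z (s J) * z' i| ≤ (bd B0 (k - (j + 1)) : ℤ) ^ 2 := by
          rw [abs_mul, sq]
          exact mul_le_mul (hb _) (hb' _) (abs_nonneg _) (Int.natCast_nonneg _)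
        calc _ ≤ |z' (s J) * z i| + |z (s J) * z' i| := abs_sub _ _
          _ ≤ _ := by linarith
      have hqd : dot n q = (z' (s J) : ℝ) * dot n z := by
        have : dot n q = (z' (s J) : ℝ) * dot n z - (z (s J) : ℝ) * dot n z' := by
          unfold dot
          rw [Finset.mul_sum, Finset.mul_sum, ← Finset.sum_sub_distrib]
          refine Finset.sum_congr rfl fun i _ => ?_
          simp only [hq]
          push_cast
          ring
        rw [this, hdot]; ring
      have hqne : dot n q ≠ 0 := by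
        rw [hqd]; exact mul_ne_zero (by exact_mod_cast hne') hne
      have := ih hjk'.le q hqz hqb hqne
      refine le_trans this ?_
      rw [hqd, abs_mul, pow_succ]
      have hz1 : |(z' (s J) : ℝ)| ≤ bigB k B0 := by
        have := hb' (s J)
        have h2 : (bd B0 (k - (j + 1)) : ℤ) ≤ (bd B0 k : ℤ) := by
          exact_mod_cast bd_mono B0 (by omega)
        have h3 : |z' (s J)| ≤ (bd B0 k : ℤ) := le_trans this h2
        unfold bigB
        exact_mod_cast h3
      have h0 : 0 ≤ |dot n z| * bigB k B0 ^ j := by positivity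
      calc |(z' (s J) : ℝ)| * |dot n z| * bigB k B0 ^ j
          = |(z' (s J) : ℝ)| * (|dot n z| * bigB k B0 ^ j) := by ring
        _ ≤ bigB k B0 * (|dot n z| * bigB k B0 ^ j) := mul_le_mul_of_nonneg_right hz1 h0
        _ = _ := by ring
    · have h1 := h.hole J hp z hform
      have h2 : (1 : ℝ) ≤ |(z (s J) : ℝ)| := by
        have : (1 : ℤ) ≤ |z (s J)| := Int.one_le_abs hJ
        exact_mod_cast this
      have h3 := gam_mul_le_gap B0 hT hp
      have h4 : 0 ≤ gap B0 T p J := le_trans hT (le_gap B0 hT p J)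
      have h5 : (1 : ℝ) ≤ bigB k B0 ^ (j + 1) := one_le_pow₀ hB
      calc kc k B0 * gam B0 T p ≤ gap B0 T p J := h3
        _ ≤ |(z (s J) : ℝ)| * gap B0 T p J := le_mul_of_one_le_left h4 h2
        _ ≤ |dot n z| := h1
        _ ≤ |dot n z| * bigB k B0 ^ (j + 1) := le_mul_of_one_le_right (abs_nonneg _) h5

/-- Every form available at some position is zero or far from zero. -/
lemma sep {B0 : ℕ} {cap : Bool} {T : ℝ} (hT : 0 ≤ T) {s : Fin k → Fin k} {p : Fin k → Bool}
    {n : Fin k → ℝ} (h : Adm B0 cap T s p n) {j : Fin k} {z : Fin k → ℤ}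
    (hz : Form B0 s j z) (hne : dot n z ≠ 0) :
    kc k B0 * gam B0 T p ≤ |dot n z| * bigB k B0 ^ k := by
  have hidx : k - ((j : ℕ) + 1) = k - 1 - (j : ℕ) := by omega
  have := sep_aux hT h ((j : ℕ) + 1) j.2 z (fun i hi => hz.2.2 i hi)
    (fun i => by rw [hidx]; exact hz.1 i) hne
  exact le_trans this (mul_le_mul_of_nonneg_left
    (pow_le_pow_right₀ (one_le_bigB k B0) j.2) (abs_nonneg _))

/-- Forms with the basic bound are zero or far from zero. -/
lemma sep_basic {B0 : ℕ} {cap : Bool} {T : ℝ} (hT : 0 ≤ T) {s : Fin k → Fin k}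
    {p : Fin k → Bool} {n : Fin k → ℝ} (h : Adm B0 cap T s p n) {z : Fin k → ℤ}
    (hz : ∀ i, |z i| ≤ (B0 : ℤ)) (hne : dot n z ≠ 0) :
    kc k B0 * gam B0 T p ≤ |dot n z| * bigB k B0 ^ k :=
  sep_aux hT h k le_rfl z (fun i hi => absurd i.2 (not_lt.2 hi))
    (fun i => le_trans (hz i) (by exact_mod_cast le_bd B0 _)) hne

/-- The form expressing a tie between two positions. -/
def tie (s : Fin k → Fin k) (a i : Fin k) : Fin k → ℤ :=
  Pi.single (s a) 1 - Pi.single (s i) 1

lemma form_tie {s : Fin k → Fin k} (hs : Function.Injective s) (B0 : ℕ) {a i : Fin k}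
    (h : a < i) : Form B0 s i (tie s a i) := by
  have hne : s a ≠ s i := fun e => (ne_of_lt h) (hs e)
  refine ⟨fun l => ?_, ?_, fun l hl => ?_⟩
  · refine le_trans ?_ (show (1 : ℤ) ≤ _ by exact_mod_cast one_le_bd B0 _)
    unfold tie
    rcases eq_or_ne l (s a) with e | e
    · subst e; simp [hne]
    · rcases eq_or_ne l (s i) with e' | e'
      · subst e'; simp [Ne.symm hne]
      · simp [e, e']
  · simp [tie, Ne.symm hne]
  · have h1 : s l ≠ s a := fun e => (ne_of_gt (lt_trans h hl)) (hs e)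
    have h2 : s l ≠ s i := fun e => (ne_of_gt hl) (hs e)
    simp [tie, h1, h2]

lemma dot_tie {s : Fin k → Fin k} (n : Fin k → ℝ) (a i : Fin k) :
    dot n (tie s a i) = n (s a) - n (s i) := by
  unfold dot tie
  simp [Pi.single_apply, mul_sub, Finset.sum_sub_distrib]

lemma form_one {s : Fin k → Fin k} (hs : Function.Injective s) (B0 : ℕ) (a : Fin k) :
    Form B0 s a (Pi.single (s a) 1) := by
  refine ⟨fun l => ?_, by simp, fun l hl => ?_⟩
  · refine le_trans ?_ (show (1 : ℤ) ≤ _ by exact_mod_cast one_le_bd B0 _)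
    rcases eq_or_ne l (s a) with e | e
    · subst e; simp
    · simp [e]
  · have : s l ≠ s a := fun e => (ne_of_gt hl) (hs e)
    simp [this]

lemma dot_one {s : Fin k → Fin k} (n : Fin k → ℝ) (a : Fin k) :
    dot n (Pi.single (s a) 1) = n (s a) := by
  unfold dot
  simp [Pi.single_apply]

/-! ## Replacing the tail of an admissible point by one level -/

/-- Pin pattern after putting all positions from `a` on to one level. -/
def newp (p : Fin k → Bool) (a : Fin k) (q : Bool) : Fin k → Bool :=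
  fun i => if i < a then p i else if i = a then q else true

open Classical in
/-- The point with all positions from `a` on at level `μ`. -/
def newn (s : Fin k → Fin k) (n : Fin k → ℝ) (a : Fin k) (μ : ℝ) : Fin k → ℝ :=
  fun c => if ∃ i, i < a ∧ s i = c then n c else μ

lemma newn_lt {s : Fin k → Fin k} (n : Fin k → ℝ) {a i : Fin k} (μ : ℝ) (h : i < a) :
    newn s n a μ (s i) = n (s i) := by
  unfold newn; rw [if_pos ⟨i, h, rfl⟩]

lemma newn_ge {s : Fin k → Fin k} (hs : Function.Injective s) (n : Fin k → ℝ) {a i : Fin k}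
    (μ : ℝ) (h : a ≤ i) : newn s n a μ (s i) = μ := by
  unfold newn
  rw [if_neg]
  rintro ⟨l, hl, e⟩
  exact absurd (hs e ▸ hl) (not_lt.2 h)

lemma gap_congr (B0 : ℕ) (T : ℝ) {p p' : Fin k → Bool} {j : Fin k}
    (h : ∀ i, i < j → p i = p' i) : gap B0 T p j = gap B0 T p' j := by
  unfold gap
  rw [rk_congr (p := p) (q := p') fun i hi => h i hi]

lemma gap_newp (B0 : ℕ) (T : ℝ) (p : Fin k → Bool) {a j : Fin k} (q : Bool) (h : j ≤ a) :
    gap B0 T (newp p a q) j = gap B0 T p j :=
  gap_congr B0 T fun i hi => by simp [newp, lt_of_lt_of_le hi h]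

lemma shift_newp (B0 : ℕ) (T : ℝ) (p : Fin k → Bool) {a j : Fin k} (q : Bool) (h : j < a) :
    shift B0 T (newp p a q) j = shift B0 T p j := by
  unfold shift
  rw [gap_newp B0 T p q h.le]
  simp [newp, h]

lemma gap_le_gap_newp (B0 : ℕ) {T : ℝ} (hT : 0 ≤ T) (p : Fin k → Bool) {a i : Fin k}
    (h : a < i) : gap B0 T p a ≤ gap B0 T (newp p a true) i := by
  rw [← gap_newp B0 T p true le_rfl]
  refine mul_le_mul_of_nonneg_left (pow_le_pow_right₀ (one_le_kc k B0) ?_) hT
  have h1 := rk_succ (newp p a true) a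
  rw [if_pos (by simp [newp])] at h1
  have h2 := rk_mono (newp p a true) (show (a : ℕ) + 1 ≤ (i : ℕ) from h)
  rw [h1] at h2
  exact le_trans h2 (Nat.le_add_right _ _)

/-- The threshold of a form at position `a`. -/
def thr (s : Fin k → Fin k) (n : Fin k → ℝ) (a : Fin k) (z : Fin k → ℤ) : ℝ :=
  n (s a) - dot n z / (z (s a) : ℝ)

lemma dot_eq_thr {s : Fin k → Fin k} (n : Fin k → ℝ) {a : Fin k} {z : Fin k → ℤ}
    (hz : z (s a) ≠ 0) : dot n z = (z (s a) : ℝ) * (n (s a) - thr s n a z) := by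
  have : (z (s a) : ℝ) ≠ 0 := by exact_mod_cast hz
  unfold thr
  field_simp
  ring

lemma dot_newn {B0 : ℕ} {s : Fin k → Fin k} (hs : Function.Bijective s) (n : Fin k → ℝ)
    {a : Fin k} (μ : ℝ) {z : Fin k → ℤ} (hz : Form B0 s a z) :
    dot (newn s n a μ) z = (z (s a) : ℝ) * (μ - thr s n a z) := by
  have h1 : dot (newn s n a μ) z - dot n z = (z (s a) : ℝ) * (μ - n (s a)) := by
    unfold dot
    rw [← Finset.sum_sub_distrib]
    rw [Finset.sum_eq_single (s a)]
    · rw [newn_ge hs.1 n μ le_rfl]; ring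
    · intro b _ hb
      obtain ⟨l, rfl⟩ := hs.2 b
      rcases lt_trichotomy l a with e | e | e
      · rw [newn_lt n μ e]; ring
      · exact absurd (congrArg s e) hb
      · simp [hz.2.2 l e]
    · simp
  have h2 := dot_eq_thr n hz.2.1
  nlinarith

lemma adm_new {B0 : ℕ} {cap : Bool} {T : ℝ} {s : Fin k → Fin k} {p : Fin k → Bool}
    {n : Fin k → ℝ} (h : Adm B0 cap T s p n) {a : Fin k} {μ : ℝ} {q : Bool}
    (hanti : ∀ i, i < a → μ ≤ n (s i)) (hcap : cap = true → μ ≤ 0)
    (hpin : q = true → ∃ z, Form B0 s a z ∧ μ = thr s n a z)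
    (hhole : q = false → ∀ z, Form B0 s a z → gap B0 T p a ≤ |μ - thr s n a z|) :
    Adm B0 cap T s (newp p a q) (newn s n a μ) := by
  have hs := h.bij
  have hsame : ∀ j, j < a → ∀ z, Form B0 s j z → dot (newn s n a μ) z = dot n z := by
    intro j hj z hz
    refine Finset.sum_congr rfl fun c _ => ?_
    obtain ⟨l, rfl⟩ := hs.2 c
    by_cases hl : l < a
    · rw [newn_lt n μ hl]
    · simp [hz.2.2 l (lt_of_lt_of_le hj (not_lt.1 hl))]
  refine ⟨hs, ?_, ?_, ?_, ?_⟩
  · intro i j hij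
    by_cases hi : i < a
    · rw [newn_lt n μ hi]
      by_cases hj : j < a
      · rw [newn_lt n μ hj]; exact h.anti i j hij
      · rw [newn_ge hs.1 n μ (not_lt.1 hj)]; exact hanti i hi
    · rw [newn_ge hs.1 n μ (not_lt.1 hi),
        newn_ge hs.1 n μ (le_trans (not_lt.1 hi) hij)]
  · intro hc i
    obtain ⟨l, rfl⟩ := hs.2 i
    by_cases hl : l < a
    · rw [newn_lt n μ hl]; exact h.capped hc _
    · rw [newn_ge hs.1 n μ (not_lt.1 hl)]; exact hcap hc
  · intro j hj
    rcases lt_trichotomy j a with e | e | e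
    · have hp : p j = true := by simpa [newp, e] using hj
      obtain ⟨z, hz, hd⟩ := h.pin j hp
      exact ⟨z, hz, by rw [hsame j e z hz, hd]⟩
    · subst e
      have hp : q = true := by simpa [newp] using hj
      obtain ⟨z, hz, hd⟩ := hpin hp
      exact ⟨z, hz, by rw [dot_newn hs n μ hz, hd]; ring⟩
    · refine ⟨tie s a j, form_tie hs.1 B0 e, ?_⟩
      rw [dot_tie, newn_ge hs.1 n μ le_rfl, newn_ge hs.1 n μ e.le]
      ring
  · intro j hj z hz
    rcases lt_trichotomy j a with e | e | e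
    · have hp : p j = false := by simpa [newp, e] using hj
      rw [hsame j e z hz, gap_newp B0 T p q e.le]
      exact h.hole j hp z hz
    · subst e
      have hp : q = false := by simpa [newp] using hj
      rw [dot_newn hs n μ hz, gap_newp B0 T p q le_rfl, abs_mul]
      exact mul_le_mul_of_nonneg_left (hhole hp z hz) (abs_nonneg _)
    · simp [newp, not_lt.2 e.le, ne_of_gt e] at hj

lemma best_compare {B0 : ℕ} {cap : Bool} {T : ℝ} {x : Fin k → ℝ} {s : Fin k → Fin k}
    {p : Fin k → Bool} {n : Fin k → ℝ} (h : IsBest B0 cap T x s p n) {a : Fin k} {μ : ℝ}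
    {q : Bool} (hA : Adm B0 cap T s (newp p a q) (newn s n a μ)) :
    (∑ i ∈ Finset.Ici a, x (s i) * (μ - n (s i)))
      + (∑ i ∈ Finset.Ici a, exp (n (s i) - shift B0 T p i))
      ≤ ∑ i ∈ Finset.Ici a, exp (μ - shift B0 T (newp p a q) i) := by
  have hs := h.1.bij
  have h1 := h.2 _ _ _ hA
  unfold val cost at h1
  rw [← hs.sum_comp (fun i => x i * n i),
    ← hs.sum_comp (fun i => x i * newn s n a μ i)] at h1
  have e1 : ∀ f g : Fin k → ℝ, (∀ i, i < a → f i = g i) →
      (∑ i, f i) - ∑ i, g i = ∑ i ∈ Finset.Ici a, (f i - g i) := by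
    intro f g hfg
    rw [← Finset.sum_sub_distrib]
    symm
    refine Finset.sum_subset (Finset.subset_univ _) fun i _ hi => ?_
    rw [Finset.mem_Ici, not_le] at hi
    rw [hfg i hi, sub_self]
  have e2 := e1 (fun i => x (s i) * newn s n a μ (s i)) (fun i => x (s i) * n (s i))
    (fun i hi => by simp [newn_lt n μ hi])
  have e3 := e1 (fun i => exp (newn s n a μ (s i) - shift B0 T (newp p a q) i))
    (fun i => exp (n (s i) - shift B0 T p i))
    (fun i hi => by simp [newn_lt n μ hi, shift_newp B0 T p q hi])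
  have e4 : ∑ i ∈ Finset.Ici a, (x (s i) * newn s n a μ (s i) - x (s i) * n (s i))
      = ∑ i ∈ Finset.Ici a, x (s i) * (μ - n (s i)) :=
    Finset.sum_congr rfl fun i hi => by
      rw [newn_ge hs.1 n μ (Finset.mem_Ici.1 hi)]; ring
  have e5 : ∑ i ∈ Finset.Ici a, (exp (newn s n a μ (s i) - shift B0 T (newp p a q) i)
        - exp (n (s i) - shift B0 T p i))
      = (∑ i ∈ Finset.Ici a, exp (μ - shift B0 T (newp p a q) i))
        - ∑ i ∈ Finset.Ici a, exp (n (s i) - shift B0 T p i) := by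
    rw [← Finset.sum_sub_distrib]
    exact Finset.sum_congr rfl fun i hi => by rw [newn_ge hs.1 n μ (Finset.mem_Ici.1 hi)]
  rw [e4] at e2
  rw [e5] at e3
  linarith

/-! ## The maximiser is close to `log x` -/

/-- Number of possible forms. -/
def nforms (k B0 : ℕ) : ℕ := (2 * bd B0 k + 1) ^ k

/-- Constant in the threshold for `T`. -/
def cbig (k B0 : ℕ) : ℝ := (2 * (nforms k B0 : ℝ) + 6) * kc k B0 ^ (2 ^ k)

/-- Threshold for `T`. -/
def tzero (k B0 : ℕ) : ℝ := 16 * ((k : ℝ) + 1) * cbig k B0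

lemma one_le_cbig (k B0 : ℕ) : 1 ≤ cbig k B0 := by
  have h1 : (1 : ℝ) ≤ 2 * (nforms k B0 : ℝ) + 6 := by
    have : (0 : ℝ) ≤ (nforms k B0 : ℝ) := Nat.cast_nonneg _
    linarith
  exact one_le_mul_of_one_le_of_one_le h1 (one_le_pow₀ (one_le_kc k B0))

lemma lt_tzero (k B0 : ℕ) : (k : ℝ) + 1 < tzero k B0 := by
  have := one_le_cbig k B0
  have h : (0 : ℝ) ≤ (k : ℝ) := Nat.cast_nonneg k
  unfold tzero
  nlinarith

lemma gap_sep {B0 : ℕ} {cap : Bool} {T : ℝ} (hT : 0 ≤ T) {s : Fin k → Fin k}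
    {p : Fin k → Bool} {n : Fin k → ℝ} (h : Adm B0 cap T s p n) {a : Fin k} {z : Fin k → ℤ}
    (hz : Form B0 s a z) (hne : thr s n a z ≠ n (s a)) :
    6 * gam B0 T p ≤ |n (s a) - thr s n a z| := by
  have hd := dot_eq_thr n hz.2.1
  have hne' : dot n z ≠ 0 := by
    rw [hd]
    exact mul_ne_zero (by exact_mod_cast hz.2.1) (sub_ne_zero.2 (Ne.symm hne))
  have h1 := sep hT h hz hne'
  rw [hd, abs_mul] at h1
  have hz1 : |(z (s a) : ℝ)| ≤ bigB k B0 := by
    have h2 : (bd B0 (k - 1 - (a : ℕ)) : ℤ) ≤ (bd B0 k : ℤ) := by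
      exact_mod_cast bd_mono B0 (by omega)
    have h3 := le_trans (hz.1 (s a)) h2
    unfold bigB; exact_mod_cast h3
  have hB : 0 < bigB k B0 ^ (k + 1) := pow_pos (lt_of_lt_of_le one_pos (one_le_bigB k B0)) _
  have hg : 0 ≤ gam B0 T p := le_trans hT (le_gam B0 hT p)
  have h4 : kc k B0 * gam B0 T p ≤ |n (s a) - thr s n a z| * bigB k B0 ^ (k + 1) := by
    refine le_trans h1 ?_
    calc |(z (s a) : ℝ)| * |n (s a) - thr s n a z| * bigB k B0 ^ k
        ≤ bigB k B0 * |n (s a) - thr s n a z| * bigB k B0 ^ k := by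
          have := one_le_bigB k B0
          gcongr
      _ = _ := by ring
  have h5 : 6 * gam B0 T p * bigB k B0 ^ (k + 1) ≤ kc k B0 * gam B0 T p := by
    unfold kc
    have : 0 ≤ 2 * (k : ℝ) * bigB k B0 := by have := one_le_bigB k B0; positivity
    nlinarith [mul_nonneg (mul_nonneg this hB.le) hg]
  exact le_of_mul_le_mul_right (le_trans h5 h4) hB

lemma upper_bound {B0 : ℕ} {cap : Bool} {T : ℝ} (hT : tzero k B0 ≤ T) {x : Fin k → ℝ}
    (hx : ∀ i, 0 < x i) (hx1 : cap = true → ∀ i, x i ≤ 1) {s : Fin k → Fin k}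
    {p : Fin k → Bool} {n : Fin k → ℝ} (h : IsBest B0 cap T x s p n) (j : Fin k) :
    log (x (s j)) - n (s j) ≤ 2 * gam B0 T p := by
  classical
  by_contra hD
  rw [not_le] at hD
  have hTk : (k : ℝ) + 1 < T := lt_of_lt_of_le (lt_tzero k B0) hT
  have hk0 : (0 : ℝ) ≤ (k : ℝ) := Nat.cast_nonneg k
  have hT0 : 0 ≤ T := by linarith
  have hg := le_gam B0 hT0 p
  have hAdm := h.1
  have hs := hAdm.bij
  set lam := n (s j) with hlam
  set v := log (x (s j)) with hv
  have hexpv : exp v = x (s j) := exp_log (hx _)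
  have hne : (univ.filter fun i => n (s i) = lam).Nonempty := ⟨j, by simp [hlam]⟩
  set a := (univ.filter fun i => n (s i) = lam).min' hne with ha
  have ha1 : n (s a) = lam := (Finset.mem_filter.1 (Finset.min'_mem _ hne)).2
  have ha2 : ∀ i, i < a → lam < n (s i) := by
    intro i hi
    rcases lt_or_eq_of_le (hAdm.anti i a hi.le) with e | e
    · rwa [ha1] at e
    · exfalso
      have : a ≤ i := Finset.min'_le _ i (by simp [← e, ha1])
      exact absurd hi (not_lt.2 this)
  have haj : a ≤ j := Finset.min'_le _ j (by simp [hlam])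
  have hgapT := le_gap B0 hT0 p a
  have hcaplam : cap = true → lam < 0 := by
    intro hc
    have h1 := hAdm.capped hc (s j)
    have h2 : v ≤ 0 := Real.log_nonpos (hx _).le (hx1 hc _)
    linarith
  have key : ∀ (μ : ℝ) (q : Bool), Adm B0 cap T s (newp p a q) (newn s n a μ) →
      T ≤ μ - lam → (∀ i, a ≤ i → exp (μ - shift B0 T (newp p a q) i) ≤ x (s j)) → False := by
    intro μ q hA hμ hc
    have h1 := best_compare h hA
    have h2 : x (s j) * (μ - lam) ≤ ∑ i ∈ Finset.Ici a, x (s i) * (μ - n (s i)) := by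
      refine Finset.single_le_sum (f := fun i => x (s i) * (μ - n (s i))) ?_
        (Finset.mem_Ici.2 haj)
      intro i hi
      refine mul_nonneg (hx _).le ?_
      have := hAdm.anti a i (Finset.mem_Ici.1 hi)
      rw [ha1] at this
      linarith
    have h3 : ∑ i ∈ Finset.Ici a, exp (μ - shift B0 T (newp p a q) i) ≤ (k : ℝ) * x (s j) := by
      refine le_trans (Finset.sum_le_card_nsmul _ _ _ fun i hi => hc i (Finset.mem_Ici.1 hi)) ?_
      rw [nsmul_eq_mul]
      refine mul_le_mul_of_nonneg_right ?_ (hx _).le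
      have : (Finset.Ici a).card ≤ k := le_trans (Finset.card_le_univ _) (by simp)
      exact_mod_cast this
    have h4 : 0 ≤ ∑ i ∈ Finset.Ici a, exp (n (s i) - shift B0 T p i) :=
      Finset.sum_nonneg fun i _ => (exp_pos _).le
    have h5 : x (s j) * T ≤ x (s j) * (μ - lam) := mul_le_mul_of_nonneg_left hμ (hx _).le
    nlinarith [hx (s j)]
  have hbelow : ∀ z, Form B0 s a z → thr s n a z ≤ lam → gap B0 T p a ≤ v - thr s n a z := by
    intro z hz hle
    rcases Bool.eq_false_or_eq_true (p a) with hp | hp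
    · have := gap_le_gam B0 hT0 hp
      linarith
    · have h1 := hAdm.hole a hp z hz
      rw [dot_eq_thr n hz.2.1, abs_mul, ha1, abs_of_nonneg (by linarith : 0 ≤ lam - thr s n a z)]
        at h1
      have hpos : 0 < |(z (s a) : ℝ)| := abs_pos.2 (by exact_mod_cast hz.2.1)
      have := le_of_mul_le_mul_left h1 hpos
      linarith
  have htie : ∀ i, i < a → ∃ z, Form B0 s a z ∧ thr s n a z = n (s i) := by
    intro i hi
    refine ⟨tie s i a, form_tie hs.1 B0 hi, ?_⟩
    have hne' : s i ≠ s a := fun e => (ne_of_lt hi) (hs.1 e)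
    unfold thr
    rw [dot_tie]
    simp [tie, Ne.symm hne']
    ring
  have hfin : {z | Form B0 s a z}.Finite := by
    refine (Fintype.piFinset (fun _ : Fin k =>
      Finset.Icc (-(bd B0 (k - 1 - (a : ℕ)) : ℤ)) (bd B0 (k - 1 - (a : ℕ))))).finite_toSet.subset ?_
    intro z hz
    simp only [Finset.mem_coe, Fintype.mem_piFinset, Finset.mem_Icc]
    exact fun i => abs_le.1 (hz.1 i)
  set S := hfin.toFinset.filter fun z => lam < thr s n a z ∧ thr s n a z < v + gap B0 T p a
    with hS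
  have hmemS : ∀ z, Form B0 s a z → lam < thr s n a z → thr s n a z < v + gap B0 T p a →
      z ∈ S := by
    intro z h1 h2 h3
    simp [hS, h1, h2, h3]
  rcases S.eq_empty_or_nonempty with hSe | hSne
  · have habove : ∀ z, Form B0 s a z → lam < thr s n a z → v + gap B0 T p a ≤ thr s n a z := by
      intro z h1 h2
      by_contra h3
      exact Finset.notMem_empty z (hSe ▸ hmemS z h1 h2 (not_le.1 h3))
    refine key v false (adm_new hAdm ?_ ?_ (by simp) ?_) (by linarith) ?_
    · intro i hi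
      obtain ⟨z, hz, he⟩ := htie i hi
      have := habove z hz (by rw [he]; exact ha2 i hi)
      linarith
    · intro hc
      exact Real.log_nonpos (hx _).le (hx1 hc _)
    · intro _ z hz
      rcases le_or_gt (thr s n a z) lam with e | e
      · exact le_trans (hbelow z hz e) (le_abs_self _)
      · have := habove z hz e
        exact le_trans (by linarith) (neg_le_abs _)
    · intro i _
      have := shift_nonneg B0 hT0 (newp p a false) i
      rw [← hexpv]
      exact exp_le_exp.2 (by linarith)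
  · obtain ⟨z0, hz0, hmin⟩ := S.exists_min_image (thr s n a) hSne
    simp only [hS, Finset.mem_filter, Set.Finite.mem_toFinset, Set.mem_ofPred_eq] at hz0
    obtain ⟨hf0, hlt0, hub0⟩ := hz0
    set μ := thr s n a z0 with hμ
    have hle : ∀ z, Form B0 s a z → lam < thr s n a z → μ ≤ thr s n a z := by
      intro z h1 h2
      rcases lt_or_ge (thr s n a z) (v + gap B0 T p a) with e | e
      · exact hmin z (hmemS z h1 h2 e)
      · linarith
    have hgain : T ≤ μ - lam := by
      have h1 := gap_sep hT0 hAdm hf0 (by rw [ha1]; exact ne_of_gt hlt0)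
      rw [ha1, ← hμ, abs_sub_comm, abs_of_pos (sub_pos.2 hlt0)] at h1
      linarith
    refine key μ true (adm_new hAdm ?_ ?_ (fun _ => ⟨z0, hf0, rfl⟩) (by simp)) hgain ?_
    · intro i hi
      obtain ⟨z, hz, he⟩ := htie i hi
      rw [← he]
      exact hle z hz (by rw [he]; exact ha2 i hi)
    · intro hc
      have h1 := form_one hs.1 B0 a
      have h2 : thr s n a (Pi.single (s a) 1) = 0 := by
        unfold thr; rw [dot_one]; simp
      have := hle _ h1 (by rw [h2]; exact hcaplam hc)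
      rwa [h2] at this
    · intro i hi
      rw [← hexpv]
      refine exp_le_exp.2 ?_
      have hsh : gap B0 T p a ≤ shift B0 T (newp p a true) i := by
        rcases eq_or_lt_of_le hi with e | e
        · subst e
          unfold shift
          rw [if_pos (by simp [newp]), gap_newp B0 T p true le_rfl]
        · unfold shift
          rw [if_pos (by simp [newp, not_lt.2 e.le, ne_of_gt e])]
          exact gap_le_gap_newp B0 hT0 p e
      linarith

lemma adm_swap {B0 : ℕ} {cap : Bool} {T : ℝ} {s : Fin k → Fin k} {p : Fin k → Bool}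
    {n : Fin k → ℝ} (h : Adm B0 cap T s p n) {j e : Fin k} (he : n (s j) = n (s e)) :
    Adm B0 cap T (s ∘ Equiv.swap j e) p n ∧
      ∀ i, n ((s ∘ Equiv.swap j e) i) = n (s i) := by
  have hs := h.bij
  have hn : ∀ i, n ((s ∘ Equiv.swap j e) i) = n (s i) := by
    intro i
    simp only [Function.comp_apply]
    rcases eq_or_ne i j with h1 | h1
    · subst h1; simp [he]
    · rcases eq_or_ne i e with h2 | h2
      · subst h2; simp [he]
      · rw [Equiv.swap_apply_of_ne_of_ne h1 h2]
  set τ := Equiv.swap (s j) (s e) with hτ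
  have hτs : ∀ i, τ (s i) = s (Equiv.swap j e i) := fun i => hs.1.swap_apply j e i
  have hnτ : ∀ c, n (τ c) = n c := by
    intro c
    obtain ⟨l, rfl⟩ := hs.2 c
    rw [hτs]; exact hn l
  have hdot : ∀ z : Fin k → ℤ, dot n (z ∘ τ) = dot n z := by
    intro z
    unfold dot
    refine Fintype.sum_equiv τ _ _ fun c => ?_
    simp [hnτ c]
  have hττ : ∀ z : Fin k → ℤ, (z ∘ τ) ∘ τ = z := by
    intro z; funext c; simp [hτ]
  have hconv : ∀ i z, Form B0 (s ∘ Equiv.swap j e) i z → Form B0 s i (z ∘ τ) := by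
    intro i z hz
    refine ⟨fun c => hz.1 _, ?_, fun l hl => ?_⟩
    · simpa [hτs] using hz.2.1
    · simpa [hτs] using hz.2.2 l hl
  refine ⟨⟨hs.comp (Equiv.swap j e).bijective, ?_, h.capped, ?_, ?_⟩, hn⟩
  · intro a b hab
    rw [hn, hn]; exact h.anti a b hab
  · intro i hi
    obtain ⟨z, hz, hd⟩ := h.pin i hi
    refine ⟨z ∘ τ, ⟨fun c => hz.1 _, ?_, fun l hl => ?_⟩, by rw [hdot, hd]⟩
    · simp only [Function.comp_apply]
      rw [hτs, Equiv.swap_apply_self]; exact hz.2.1
    · simp only [Function.comp_apply]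
      rw [hτs, Equiv.swap_apply_self]; exact hz.2.2 l hl
  · intro i hi z hz
    have := h.hole i hi _ (hconv i z hz)
    rw [hdot] at this
    simpa [hτs] using this

lemma small_arith {c L a w : ℝ} (hc : 0 ≤ c) (hL : 0 ≤ L) (ha : 0 < a) (ha1 : a ≤ 1)
    (hbig : 4 * (c + 1) * (L + 1) * a ≤ 1) (hkey : a ≤ L * w + c * L * a ^ 3 + c * a ^ 2) :
    a ^ 2 ≤ w := by
  have e : 4 * (c + 1) * (L + 1) * a = 4 * (c * L * a) + 4 * (c * a) + 4 * (L * a) + 4 * a := by
    ring
  have p1 : 0 ≤ c * L * a := by positivity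
  have p2 : 0 ≤ c * a := by positivity
  have p3 : 0 ≤ L * a := by positivity
  have h1 : c * a ^ 2 ≤ a / 4 := by
    have := mul_le_mul_of_nonneg_right (show c * a ≤ 1 / 4 by linarith) ha.le
    linarith
  have h2 : c * L * a ^ 3 ≤ a / 4 := by
    have h3 : c * L * a ^ 3 ≤ c * L * a * a := by
      have := mul_le_mul_of_nonneg_left ha1 (show 0 ≤ c * L * a * a by positivity)
      linarith
    have := mul_le_mul_of_nonneg_right (show c * L * a ≤ 1 / 4 by linarith) ha.le
    linarith
  by_contra hcon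
  rw [not_le] at hcon
  have h4 : L * w ≤ L * a ^ 2 := mul_le_mul_of_nonneg_left hcon.le hL
  have := mul_le_mul_of_nonneg_right (show L * a ≤ 1 / 4 by linarith) ha.le
  linarith

lemma lower_last {B0 : ℕ} {cap : Bool} {T : ℝ} (hT : tzero k B0 ≤ T) {x : Fin k → ℝ}
    (hx : ∀ i, 0 < x i) (hx1 : cap = true → ∀ i, x i ≤ 1) {s : Fin k → Fin k}
    {p : Fin k → Bool} {n : Fin k → ℝ} (h : IsBest B0 cap T x s p n) {e : Fin k}
    (hlast : ∀ i, e < i → n (s i) < n (s e)) :
    n (s e) - log (x (s e)) ≤ 2 * gam B0 T p := by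
  classical
  have hTk : (k : ℝ) + 1 < T := lt_of_lt_of_le (lt_tzero k B0) hT
  have hk0 : (0 : ℝ) ≤ (k : ℝ) := Nat.cast_nonneg k
  have hT0 : 0 ≤ T := by linarith
  have hg := le_gam B0 hT0 p
  have hAdm := h.1
  have hs := hAdm.bij
  set lam := n (s e) with hlam
  set G := gam B0 T p with hG
  set H := hmax k B0 T with hH
  have hHpos : 0 < H := lt_of_lt_of_le (by linarith : 0 < T) (le_trans hg (gam_le_hmax B0 hT0 p))
  set N := nforms k B0 with hN
  set F : Finset (Fin k → ℤ) :=
    Fintype.piFinset fun _ : Fin k => Finset.Icc (-(bd B0 k : ℤ)) (bd B0 k) with hF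
  have hFcard : F.card = N := by
    rw [hF, Fintype.card_piFinset]
    simp [hN, nforms]
    congr 1
    omega
  obtain ⟨m, hmN, hm⟩ : ∃ m : ℕ, m ≤ N ∧ ∀ z ∈ F,
      H ≤ |lam - 2 * G - 2 * H * m - thr s n e z| := by
    by_contra hcon
    push Not at hcon
    have hch : ∀ m : Fin (N + 1), ∃ z ∈ F, |lam - 2 * G - 2 * H * (m : ℕ) - thr s n e z| < H :=
      fun m => hcon m (Nat.lt_succ_iff.1 m.2)
    choose f hf1 hf2 using hch
    have hinj : Function.Injective f := by
      intro a b hab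
      have h1 := hf2 a
      have h2 := hf2 b
      rw [hab] at h1
      rw [abs_lt] at h1 h2
      have h3 : |((a : ℕ) : ℝ) - ((b : ℕ) : ℝ)| < 1 := by
        rw [abs_lt]; constructor <;> nlinarith
      have h4 : |((a : ℕ) : ℤ) - ((b : ℕ) : ℤ)| < 1 := by exact_mod_cast h3
      rw [abs_lt] at h4
      exact Fin.ext (by omega)
    have := Finset.card_le_card_of_injOn (s := (univ : Finset (Fin (N + 1)))) (t := F) f
      (fun a _ => hf1 a) (hinj.injOn)
    simp [hFcard] at this
  set μ := lam - 2 * G - 2 * H * (m : ℝ) with hμ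
  have hm0 : 0 ≤ 2 * H * (m : ℝ) := by positivity
  set L := 2 * G + 2 * H * ((N : ℝ) + 1) with hL
  have hμL : lam - L ≤ μ := by
    have : (m : ℝ) ≤ (N : ℝ) := by exact_mod_cast hmN
    rw [hμ, hL]
    nlinarith
  have hA : Adm B0 cap T s (newp p e false) (newn s n e μ) := by
    refine adm_new hAdm ?_ ?_ (by simp) ?_
    · intro i hi
      have := hAdm.anti i e hi.le
      linarith
    · intro hc
      have := hAdm.capped hc (s e)
      linarith
    · intro _ z hz
      refine le_trans (gap_le_hmax B0 hT0 p e) (hm z ?_)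
      simp only [hF, Fintype.mem_piFinset, Finset.mem_Icc]
      intro i
      exact abs_le.1 (le_trans (hz.1 i) (by exact_mod_cast bd_mono B0 (by omega)))
  have h1 := best_compare h hA
  have hcard : ((Finset.Ici e).card : ℝ) ≤ (k : ℝ) := by
    have : (Finset.Ici e).card ≤ k := le_trans (Finset.card_le_univ _) (by simp)
    exact_mod_cast this
  have hnew : ∑ i ∈ Finset.Ici e, exp (μ - shift B0 T (newp p e false) i)
      ≤ (k : ℝ) * exp (lam - 2 * G) := by
    refine le_trans (Finset.sum_le_card_nsmul _ _ (exp (lam - 2 * G)) fun i _ => ?_) ?_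
    · have := shift_nonneg B0 hT0 (newp p e false) i
      exact exp_le_exp.2 (by linarith)
    · rw [nsmul_eq_mul]
      exact mul_le_mul_of_nonneg_right hcard (exp_pos _).le
  have hold : exp (lam - G) ≤ ∑ i ∈ Finset.Ici e, exp (n (s i) - shift B0 T p i) := by
    refine le_trans ?_ (Finset.single_le_sum (f := fun i => exp (n (s i) - shift B0 T p i))
      (fun i _ => (exp_pos _).le) (Finset.mem_Ici.2 le_rfl))
    have := shift_le_gam B0 hT0 p e
    exact exp_le_exp.2 (by linarith)
  have hGnn : 0 ≤ G := by linarith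
  have hL0 : 0 ≤ L := by rw [hL]; positivity
  have hlin : -(L * x (s e)) - (k : ℝ) * L * exp (lam - 3 * G)
      ≤ ∑ i ∈ Finset.Ici e, x (s i) * (μ - n (s i)) := by
    rw [← Finset.add_sum_erase _ _ (Finset.mem_Ici.2 (le_refl e))]
    have h2 : -(L * x (s e)) ≤ x (s e) * (μ - n (s e)) := by
      have := mul_le_mul_of_nonneg_left (show -L ≤ μ - n (s e) by linarith) (hx (s e)).le
      linarith
    have h3 : ∀ i ∈ (Finset.Ici e).erase e,
        -(L * exp (lam - 3 * G)) ≤ x (s i) * (μ - n (s i)) := by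
      intro i hi
      obtain ⟨hie, hei⟩ := Finset.mem_erase.1 hi
      have hlt : e < i := lt_of_le_of_ne (Finset.mem_Ici.1 hei) (Ne.symm hie)
      have hn' := hlast i hlt
      have hf := form_tie hs.1 B0 hlt
      have hthr : thr s n i (tie s e i) = lam := by
        have hne' : s e ≠ s i := fun q => hie (hs.1 q).symm
        unfold thr; rw [dot_tie]; simp [tie, Ne.symm hne', hlam]; ring
      have h4 := gap_sep hT0 hAdm hf (by rw [hthr]; exact ne_of_gt hn')
      rw [hthr, abs_sub_comm, abs_of_pos (sub_pos.2 hn')] at h4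
      have h5 := upper_bound hT hx hx1 h i
      have h6 : x (s i) ≤ exp (lam - 3 * G) := by
        rw [← exp_log (hx (s i))]
        exact exp_le_exp.2 (by linarith)
      have h7 : -L ≤ μ - n (s i) := by linarith
      have h8 := mul_le_mul_of_nonneg_left h7 (hx (s i)).le
      have h9 := mul_le_mul_of_nonneg_right h6 hL0
      linarith
    have h10 := Finset.card_nsmul_le_sum _ _ _ h3
    rw [nsmul_eq_mul] at h10
    have h11 : (((Finset.Ici e).erase e).card : ℝ) ≤ (k : ℝ) := by
      have : ((Finset.Ici e).erase e).card ≤ k := le_trans (Finset.card_le_univ _) (by simp)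
      exact_mod_cast this
    have h12 : 0 ≤ L * exp (lam - 3 * G) := mul_nonneg hL0 (exp_pos _).le
    have h13 := mul_le_mul_of_nonneg_right h11 h12
    linarith
  -- normalise by `exp lam`
  set a := exp (-G) with ha
  have ha0 : 0 < a := exp_pos _
  have e1 : exp (lam - G) = exp lam * a := by rw [ha, ← exp_add]; ring_nf
  have e2 : exp (lam - 2 * G) = exp lam * a ^ 2 := by
    rw [ha, ← exp_nat_mul, ← exp_add]; push_cast; ring_nf
  have e3 : exp (lam - 3 * G) = exp lam * a ^ 3 := by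
    rw [ha, ← exp_nat_mul, ← exp_add]; push_cast; ring_nf
  have hGH : G ≤ H := gam_le_hmax B0 hT0 p
  have hLT : L + 1 ≤ T * cbig k B0 := by
    have hK1 : (1 : ℝ) ≤ kc k B0 ^ (2 ^ k) := one_le_pow₀ (one_le_kc k B0)
    have hH1 : (1 : ℝ) ≤ H := by
      rw [hH]; unfold hmax; exact one_le_mul_of_one_le_of_one_le (by linarith) hK1
    have hE : T * cbig k B0 = (2 * (N : ℝ) + 6) * H := by
      rw [hH, hN]; unfold cbig hmax; ring
    rw [hE, hL]
    nlinarith
  have hbig : 4 * ((k : ℝ) + 1) * (L + 1) * a ≤ 1 := by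
    have h2 : T ^ 2 / 2 ≤ exp G := by
      have := quadratic_le_exp_of_nonneg hT0
      have h3 := exp_le_exp.2 hg
      linarith
    have h4 : 4 * ((k : ℝ) + 1) * (L + 1) ≤ exp G := by
      refine le_trans ?_ h2
      have h5 : 4 * ((k : ℝ) + 1) * (L + 1) ≤ 4 * ((k : ℝ) + 1) * (T * cbig k B0) :=
        mul_le_mul_of_nonneg_left hLT (by positivity)
      have h6 := mul_le_mul_of_nonneg_left hT hT0
      unfold tzero at h6
      have h7 : 0 ≤ ((k : ℝ) + 1) * (T * cbig k B0) :=
        mul_nonneg (by positivity) (mul_nonneg hT0 (by linarith [one_le_cbig k B0]))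
      nlinarith
    calc 4 * ((k : ℝ) + 1) * (L + 1) * a ≤ exp G * a := mul_le_mul_of_nonneg_right h4 ha0.le
      _ = 1 := by rw [ha, ← exp_add]; simp
  set w := x (s e) / exp lam with hw
  have hxw : x (s e) = exp lam * w := by rw [hw]; field_simp
  have hkey : a ≤ L * w + (k : ℝ) * L * a ^ 3 + (k : ℝ) * a ^ 2 := by
    refine le_of_mul_le_mul_left ?_ (exp_pos lam)
    rw [e1] at hold
    rw [e2] at hnew
    rw [e3, hxw] at hlin
    linarith
  have ha1' : a ≤ 1 := by
    rw [ha]; exact exp_le_one_iff.2 (by linarith)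
  have hwlow : a ^ 2 ≤ w := small_arith hk0 hL0 ha0 ha1' hbig hkey
  have : exp (lam - 2 * G) ≤ exp (log (x (s e))) := by
    rw [exp_log (hx _), e2, hxw]
    exact mul_le_mul_of_nonneg_left hwlow (exp_pos _).le
  have := exp_le_exp.1 this
  linarith

lemma lower_bound {B0 : ℕ} {cap : Bool} {T : ℝ} (hT : tzero k B0 ≤ T) {x : Fin k → ℝ}
    (hx : ∀ i, 0 < x i) (hx1 : cap = true → ∀ i, x i ≤ 1) {s : Fin k → Fin k}
    {p : Fin k → Bool} {n : Fin k → ℝ} (h : IsBest B0 cap T x s p n) (j : Fin k) :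
    n (s j) - log (x (s j)) ≤ 2 * gam B0 T p := by
  classical
  obtain ⟨hAdm, hopt⟩ := h
  have hne : (univ.filter fun i => n (s i) = n (s j)).Nonempty := ⟨j, by simp⟩
  set e := (univ.filter fun i => n (s i) = n (s j)).max' hne with he
  have he1 : n (s e) = n (s j) := (Finset.mem_filter.1 (Finset.max'_mem _ hne)).2
  obtain ⟨hA', hn'⟩ := adm_swap hAdm he1.symm
  have hval : ∀ y : Fin k → ℝ, val B0 T y (s ∘ Equiv.swap j e) p n = val B0 T y s p n := by
    intro y
    unfold val cost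
    congr 1
    exact Finset.sum_congr rfl fun i _ => by rw [hn']
  have hbest : IsBest B0 cap T x (s ∘ Equiv.swap j e) p n :=
    ⟨hA', fun s' p' n' h' => by rw [hval]; exact hopt s' p' n' h'⟩
  have hlast : ∀ i, e < i → n ((s ∘ Equiv.swap j e) i) < n ((s ∘ Equiv.swap j e) e) := by
    intro i hi
    rw [hn', hn']
    refine lt_of_le_of_ne (hAdm.anti e i hi.le) fun q => ?_
    have : i ≤ e := Finset.le_max' _ i (by simp [q, he1])
    exact absurd hi (not_lt.2 this)
  have := lower_last hT hx hx1 hbest hlast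
  simpa [he1] using this

/-- At a maximiser `log x - n` is bounded. -/
theorem best_close {B0 : ℕ} {cap : Bool} {T : ℝ} (hT : tzero k B0 ≤ T) {x : Fin k → ℝ}
    (hx : ∀ i, 0 < x i) (hx1 : cap = true → ∀ i, x i ≤ 1) {s : Fin k → Fin k}
    {p : Fin k → Bool} {n : Fin k → ℝ} (h : IsBest B0 cap T x s p n) (c : Fin k) :
    |log (x c) - n c| ≤ 2 * gam B0 T p := by
  obtain ⟨j, rfl⟩ := h.1.bij.2 c
  rw [abs_le]
  constructor
  · linarith [lower_bound hT hx hx1 h j]
  · linarith [upper_bound hT hx hx1 h j]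

/-- At a maximiser the sign of each basic form at `n` is its sign at `log x`, with margin `T`. -/
theorem best_sign {B0 : ℕ} {cap : Bool} {T : ℝ} (hT : tzero k B0 ≤ T) {x : Fin k → ℝ}
    (hx : ∀ i, 0 < x i) (hx1 : cap = true → ∀ i, x i ≤ 1) {s : Fin k → Fin k}
    {p : Fin k → Bool} {n : Fin k → ℝ} (h : IsBest B0 cap T x s p n) {z : Fin k → ℤ}
    (hz : ∀ i, |z i| ≤ (B0 : ℤ)) (hpos : 0 < dot n z) :
    T ≤ dot (fun i => log (x i)) z := by
  have hTk : (k : ℝ) + 1 < T := lt_of_lt_of_le (lt_tzero k B0) hT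
  have hk0 : (0 : ℝ) ≤ (k : ℝ) := Nat.cast_nonneg k
  have hT0 : 0 ≤ T := by linarith
  have hg := le_gam B0 hT0 p
  have hB := one_le_bigB k B0
  have h1 := sep_basic hT0 h.1 hz (ne_of_gt hpos)
  rw [abs_of_pos hpos] at h1
  have h2 : dot n z - dot (fun i => log (x i)) z ≤ (k : ℝ) * bigB k B0 * (2 * gam B0 T p) := by
    unfold dot
    rw [← Finset.sum_sub_distrib]
    refine le_trans (Finset.sum_le_card_nsmul _ _ (bigB k B0 * (2 * gam B0 T p)) fun i _ => ?_) ?_
    · rw [← sub_mul]
      refine le_trans (le_abs_self _) ?_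
      rw [abs_mul, mul_comm, abs_sub_comm]
      refine mul_le_mul ?_ (best_close hT hx hx1 h i) (abs_nonneg _) (by linarith)
      have h3 : |z i| ≤ (bd B0 k : ℤ) := le_trans (hz i) (by exact_mod_cast le_bd B0 k)
      unfold bigB; exact_mod_cast h3
    · simp [mul_assoc]
  have hpow : 0 < bigB k B0 ^ k := pow_pos (lt_of_lt_of_le one_pos hB) _
  have h4 : (2 * (k : ℝ) * bigB k B0 + 6) * gam B0 T p ≤ dot n z := by
    refine le_of_mul_le_mul_right (le_trans ?_ h1) hpow
    have h5 : kc k B0 = (2 * (k : ℝ) * bigB k B0 + 6) * bigB k B0 * bigB k B0 ^ k := by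
      unfold kc; ring
    rw [h5]
    have h6 : 0 ≤ (2 * (k : ℝ) * bigB k B0 + 6) := by positivity
    have h7 : 0 ≤ (2 * (k : ℝ) * bigB k B0 + 6) * gam B0 T p * bigB k B0 ^ k :=
      mul_nonneg (mul_nonneg h6 (by linarith)) hpow.le
    nlinarith
  linarith

end Vale.Agent.P072
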