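import Vale.Agent.P072.Potential

/-!
# The potential as a supremum: existence of maximisers and continuity
-/

noncomputable section

open Finset Real Set Filter Topology
open scoped BigOperators

namespace Vale.Agent.P072

variable {k : ℕ}

/-- The potential. -/
def pot (B0 : ℕ) (cap : Bool) (T : ℝ) (x : Fin k → ℝ) : ℝ :=
  sSup {r | ∃ s p n, Adm B0 cap T s p n ∧ r = val B0 T x s p n}

/-- The combinatorial part of an admissible point. -/
abbrev Pat (k : ℕ) := (Fin k → Fin k) × (Fin k → Bool)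

lemma gap_smul (B0 : ℕ) (c T : ℝ) (p : Fin k → Bool) (j : Fin k) :
    gap B0 (c * T) p j = c * gap B0 T p j := by unfold gap; ring

lemma dot_smul (c : ℝ) (n : Fin k → ℝ) (z : Fin k → ℤ) :
    dot (fun i => c * n i) z = c * dot n z := by
  unfold dot; rw [Finset.mul_sum]; exact Finset.sum_congr rfl fun i _ => by ring

lemma adm_smul {B0 : ℕ} {cap : Bool} {T c : ℝ} (hc : 0 ≤ c) {s : Fin k → Fin k}
    {p : Fin k → Bool} {n : Fin k → ℝ} (h : Adm B0 cap T s p n) :
    Adm B0 cap (c * T) s p (fun i => c * n i) := by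
  refine ⟨h.bij, fun i j hij => mul_le_mul_of_nonneg_left (h.anti i j hij) hc,
    fun hcap i => mul_nonpos_of_nonneg_of_nonpos hc (h.capped hcap i), ?_, ?_⟩
  · intro j hj
    obtain ⟨z, hz, hd⟩ := h.pin j hj
    exact ⟨z, hz, by rw [dot_smul, hd, mul_zero]⟩
  · intro j hj z hz
    rw [dot_smul, gap_smul, abs_mul, abs_of_nonneg hc, mul_left_comm]
    exact mul_le_mul_of_nonneg_left (h.hole j hj z hz) hc

/-- Admissible points at scale one. -/
def feas (k B0 : ℕ) (cap : Bool) : Set (Pat k × (Fin k → ℝ)) :=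
  {q | Adm B0 cap 1 q.1.1 q.1.2 q.2}

lemma feas_closed (k B0 : ℕ) (cap : Bool) : IsClosed (feas k B0 cap) := by
  have hdot : ∀ z : Fin k → ℤ, Continuous fun n : Fin k → ℝ => dot n z := by
    intro z; unfold dot; fun_prop
  have key : ∀ q : Pat k, IsClosed {n : Fin k → ℝ | Adm B0 cap 1 q.1 q.2 n} := by
    intro q
    by_cases hb : Function.Bijective q.1
    swap
    · have : {n : Fin k → ℝ | Adm B0 cap 1 q.1 q.2 n} = ∅ := by
        ext n; simp only [Set.mem_ofPred_eq, Set.mem_empty_iff_false, iff_false]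
        exact fun h => hb h.bij
      rw [this]; exact isClosed_empty
    have heq : {n : Fin k → ℝ | Adm B0 cap 1 q.1 q.2 n} =
        (⋂ i, ⋂ j, ⋂ (_ : i ≤ j), {n | n (q.1 j) ≤ n (q.1 i)}) ∩
        (⋂ (_ : cap = true), ⋂ i, {n : Fin k → ℝ | n i ≤ 0}) ∩
        (⋂ j, ⋂ (_ : q.2 j = true), ⋃ z ∈ {z | Form B0 q.1 j z}, {n | dot n z = 0}) ∩
        (⋂ j, ⋂ (_ : q.2 j = false), ⋂ z, ⋂ (_ : Form B0 q.1 j z),
          {n | |(z (q.1 j) : ℝ)| * gap B0 1 q.2 j ≤ |dot n z|}) := by
      ext n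
      simp only [Set.mem_ofPred_eq, Set.mem_inter_iff, Set.mem_iInter, Set.mem_iUnion,
        exists_prop]
      constructor
      · intro h
        exact ⟨⟨⟨fun i j hij => h.anti i j hij, h.capped⟩, h.pin⟩, h.hole⟩
      · rintro ⟨⟨⟨h1, h2⟩, h3⟩, h4⟩
        exact ⟨hb, h1, h2, h3, h4⟩
    rw [heq]
    refine IsClosed.inter (IsClosed.inter (IsClosed.inter ?_ ?_) ?_) ?_
    · exact isClosed_iInter fun i => isClosed_iInter fun j => isClosed_iInter fun _ =>
        isClosed_le (continuous_apply _) (continuous_apply _)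
    · exact isClosed_iInter fun _ => isClosed_iInter fun i =>
        isClosed_le (continuous_apply _) continuous_const
    · refine isClosed_iInter fun j => isClosed_iInter fun _ => ?_
      refine Set.Finite.isClosed_biUnion ?_ fun z _ => isClosed_eq (hdot z) continuous_const
      refine (Fintype.piFinset (fun _ : Fin k =>
        Finset.Icc (-(bd B0 (k - 1 - (j : ℕ)) : ℤ))
          (bd B0 (k - 1 - (j : ℕ))))).finite_toSet.subset ?_
      intro z hz
      simp only [Finset.mem_coe, Fintype.mem_piFinset, Finset.mem_Icc]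
      exact fun i => abs_le.1 (hz.1 i)
    · exact isClosed_iInter fun j => isClosed_iInter fun _ => isClosed_iInter fun z =>
        isClosed_iInter fun _ => isClosed_le continuous_const (continuous_abs.comp (hdot z))
  have : feas k B0 cap = ⋃ q : Pat k, {q} ×ˢ {n : Fin k → ℝ | Adm B0 cap 1 q.1 q.2 n} := by
    ext ⟨q, n⟩; simp [feas]
  rw [this]
  exact isClosed_iUnion_of_finite fun q => isClosed_singleton.prod (key q)

/-- The pattern of a constant point. -/
def patConst (k : ℕ) : Fin k → Bool := fun i => decide ((i : ℕ) ≠ 0)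

lemma adm_const {B0 : ℕ} {cap : Bool} {T μ : ℝ} (hT : 0 ≤ T) (hμ : hmax k B0 T ≤ |μ|)
    (hcap : cap = true → μ ≤ 0) :
    Adm B0 cap T (id : Fin k → Fin k) (patConst k) (fun _ => μ) := by
  refine ⟨Function.bijective_id, fun _ _ _ => le_rfl, fun h _ => hcap h, ?_, ?_⟩
  · intro j hj
    have hj' : (j : ℕ) ≠ 0 := by simpa [patConst] using hj
    refine ⟨tie id ⟨0, by omega⟩ j,
      form_tie Function.injective_id B0 (Fin.lt_def.2 (Nat.pos_of_ne_zero hj')), ?_⟩
    rw [dot_tie]; ring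
  · intro j hj z hz
    have hj' : (j : ℕ) = 0 := by simpa [patConst] using hj
    have hd : dot (fun _ => μ) z = μ * (z j : ℝ) := by
      unfold dot
      refine Finset.sum_eq_single j (fun b _ hb => ?_) (by simp)
      have : j < b := Fin.lt_def.2 (by
        have : (b : ℕ) ≠ (j : ℕ) := fun e => hb (Fin.ext e)
        omega)
      have := hz.2.2 b this
      simp only [id] at this
      simp [this]
    rw [hd, abs_mul, mul_comm |μ|, id]
    exact mul_le_mul_of_nonneg_left (le_trans (gap_le_hmax B0 hT _ _) hμ) (abs_nonneg _)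

lemma val_const_ge {B0 : ℕ} {T μ : ℝ} (hT : 0 ≤ T) (x : Fin k → ℝ) :
    μ * (∑ i, x i) - k * exp μ ≤
      val B0 T x (id : Fin k → Fin k) (patConst k) (fun _ => μ) := by
  unfold val cost
  rw [Finset.mul_sum]
  refine sub_le_sub (le_of_eq (Finset.sum_congr rfl fun i _ => mul_comm _ _)) ?_
  refine le_trans (Finset.sum_le_card_nsmul _ _ (exp μ) fun i _ => ?_) (by simp)
  exact exp_le_exp.2 (by linarith [shift_nonneg B0 hT (patConst k) i])

lemma term_le {x n τ : ℝ} (hx : 0 < x) (hτ : 0 ≤ τ) :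
    x * n - exp (n - τ) ≤ x * (|log x| + τ) := by
  have h := add_one_le_exp (n - τ - log x)
  have e : exp (n - τ) = x * exp (n - τ - log x) := by
    conv_rhs => arg 1; rw [← exp_log hx]
    rw [← exp_add]; ring_nf
  rw [e]
  have h1 := mul_le_mul_of_nonneg_left h hx.le
  have h2 := mul_le_mul_of_nonneg_left (le_abs_self (log x)) hx.le
  nlinarith

lemma term_bound {x n τ H a b L : ℝ} (ha : 0 < a) (hax : a ≤ x) (hxb : x ≤ b)
    (hτ : 0 ≤ τ) (hτH : τ ≤ H) (hL : 0 ≤ L) (h : -L ≤ x * n - exp (n - τ)) :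
    |n| ≤ L / a + H + 2 * b + 2 * (L + b * H) + 1 := by
  have hb : 0 ≤ b := by linarith
  have hx : 0 < x := lt_of_lt_of_le ha hax
  have h2 : 0 ≤ L / a := div_nonneg hL ha.le
  have h3 : 0 ≤ 2 * (L + b * H) := by
    have := mul_nonneg hb (le_trans hτ hτH); linarith
  rw [abs_le]
  constructor
  · rcases le_or_gt 0 n with hn | hn
    · linarith [le_trans hτ hτH]
    · have h4 : a * n ≥ -L := by
        have := mul_le_mul_of_nonpos_right hax hn.le
        linarith [exp_pos (n - τ)]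
      have : -(L / a) ≤ n := by
        rw [← neg_div, div_le_iff₀ ha]; linarith
      linarith [le_trans hτ hτH]
  · rcases le_or_gt n H with hn | hn
    · linarith
    · set u := n - H with hu
      have hu0 : 0 < u := by linarith
      have h4 : u ^ 2 / 2 ≤ L + b * H + b * u := by
        have q := quadratic_le_exp_of_nonneg hu0.le
        have q2 : exp u ≤ exp (n - τ) := exp_le_exp.2 (by linarith)
        have q3 : x * n ≤ b * n := mul_le_mul_of_nonneg_right hxb (by linarith [le_trans hτ hτH])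
        have q4 : b * n = b * H + b * u := by rw [hu]; ring
        linarith
      have : u ≤ 2 * b + 2 * (L + b * H) + 1 := by
        by_contra hc
        rw [not_le] at hc
        nlinarith [mul_nonneg hb (le_trans hτ hτH)]
      linarith

lemma coercive (B0 : ℕ) (T1 T2 a b : ℝ) (hT1 : 0 < T1) (hT2 : T1 ≤ T2) (ha : 0 < a)
    (hab : a ≤ b) :
    ∃ M, 0 ≤ M ∧ ∀ T, T1 ≤ T → T ≤ T2 → ∀ x : Fin k → ℝ, (∀ i, a ≤ x i ∧ x i ≤ b) →
      hmax k B0 T ≤ M ∧
      ∀ s p n, Function.Bijective s →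
        val B0 T x id (patConst k) (fun _ => -hmax k B0 T) ≤ val B0 T x s p n →
        ∀ i, |n i| ≤ M := by
  set H2 := hmax k B0 T2
  have hH : ∀ T, 0 ≤ T → T ≤ T2 → hmax k B0 T ≤ H2 := fun T h0 h => by
    exact mul_le_mul_of_nonneg_right h (pow_nonneg (by linarith [one_le_kc k B0]) _)
  have hH2 : 0 ≤ H2 := mul_nonneg (by linarith) (pow_nonneg (by linarith [one_le_kc k B0]) _)
  set A := b * (|log a| + |log b| + H2)
  have hb : 0 < b := lt_of_lt_of_le ha hab
  have hA : 0 ≤ A := by positivity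
  set L := H2 * (k * b) + k + k * A with hLdef
  have hL : 0 ≤ L := by positivity
  set M := L / a + H2 + 2 * b + 2 * (L + b * H2) + 1 with hM
  refine ⟨M, by positivity, fun T hT hT' x hx => ⟨?_, fun s p n hs hval i => ?_⟩⟩
  · refine le_trans (hH T (by linarith) hT') ?_
    have : 0 ≤ L / a + 2 * b + 2 * (L + b * H2) + 1 := by positivity
    linarith
  have hT0 : 0 ≤ T := by linarith
  obtain ⟨j, rfl⟩ := hs.2 i
  have hx0 : ∀ i, 0 < x i := fun i => lt_of_lt_of_le ha (hx i).1
  have hτ : ∀ i, shift B0 T p i ≤ H2 := fun i =>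
    le_trans (le_trans (shift_le_gam B0 hT0 p i) (gam_le_hmax B0 hT0 p)) (hH T hT0 hT')
  have hA' : ∀ i, x (s i) * n (s i) - exp (n (s i) - shift B0 T p i) ≤ A := by
    intro i
    refine le_trans (term_le (hx0 _) (shift_nonneg B0 hT0 p i)) ?_
    have h1 : |log (x (s i))| ≤ |log a| + |log b| := by
      have q1 := log_le_log ha (hx (s i)).1
      have q2 := log_le_log (hx0 _) (hx (s i)).2
      rw [abs_le]
      constructor
      · linarith [neg_abs_le (log a), abs_nonneg (log b)]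
      · linarith [le_abs_self (log b), abs_nonneg (log a)]
    exact mul_le_mul (hx _).2 (by linarith [hτ i])
      (add_nonneg (abs_nonneg _) (shift_nonneg B0 hT0 p i)) hb.le
  have hsum : val B0 T x s p n
      = ∑ i, (x (s i) * n (s i) - exp (n (s i) - shift B0 T p i)) := by
    unfold val cost
    rw [Finset.sum_sub_distrib, hs.sum_comp (fun i => x i * n i)]
  rw [hsum, ← Finset.add_sum_erase _ _ (Finset.mem_univ j)] at hval
  have h1 := val_const_ge (B0 := B0) (μ := -hmax k B0 T) hT0 x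
  have h2 : ∑ i ∈ univ.erase j, (x (s i) * n (s i) - exp (n (s i) - shift B0 T p i)) ≤ k * A := by
    refine le_trans (Finset.sum_le_card_nsmul _ _ A fun i _ => hA' i) ?_
    rw [nsmul_eq_mul]
    refine mul_le_mul_of_nonneg_right ?_ hA
    have : (univ.erase j).card ≤ k := le_trans (Finset.card_le_univ _) (by simp)
    exact_mod_cast this
  have h3 : ∑ i, x i ≤ k * b := by
    refine le_trans (Finset.sum_le_card_nsmul _ _ b fun i _ => (hx i).2) (by simp)
  have h4 : exp (-hmax k B0 T) ≤ 1 := by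
    refine exp_le_one_iff.2 ?_
    have := mul_nonneg hT0 (pow_nonneg (by linarith [one_le_kc k B0] : (0:ℝ) ≤ kc k B0) (2 ^ k))
    unfold hmax; linarith
  have h5 : hmax k B0 T * ∑ i, x i ≤ H2 * (k * b) :=
    mul_le_mul (hH T hT0 hT') h3 (Finset.sum_nonneg fun i _ => (hx0 i).le) hH2
  have h6 : (k : ℝ) * exp (-hmax k B0 T) ≤ k := mul_le_of_le_one_right (Nat.cast_nonneg k) h4
  exact term_bound ha (hx _).1 (hx _).2 (shift_nonneg B0 hT0 p j) (hτ j) hL (by
    rw [hLdef]; linarith)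

/-- The affine functions at scale one, as one function. -/
def fval (B0 : ℕ) (w : ℝ × (Fin k → ℝ)) (q : Pat k × (Fin k → ℝ)) : ℝ :=
  val B0 w.1 w.2 q.1.1 q.1.2 (fun i => w.1 * q.2 i)

lemma fval_continuous (B0 : ℕ) : Continuous ↿(fval (k := k) B0) := by
  have h : ∀ q : Pat k, Continuous fun u : (ℝ × (Fin k → ℝ)) × (Fin k → ℝ) =>
      fval B0 u.1 (q, u.2) := by
    intro q
    unfold fval val cost shift gap
    refine Continuous.sub (by fun_prop) (continuous_finsetSum _ fun j _ => ?_)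
    by_cases hq : q.2 j = true
    · simp only [if_pos hq]; fun_prop
    · simp only [if_neg hq]; fun_prop
  have h' : Continuous fun u : Pat k × ((ℝ × (Fin k → ℝ)) × (Fin k → ℝ)) =>
      fval B0 u.2.1 (u.1, u.2.2) := continuous_prod_of_discrete_left.2 h
  exact h'.comp (continuous_snd.fst.prodMk (continuous_fst.prodMk continuous_snd.snd))

lemma pot_eq {B0 : ℕ} {cap : Bool} {T : ℝ} {x : Fin k → ℝ} {s : Fin k → Fin k}
    {p : Fin k → Bool} {n : Fin k → ℝ} (h : IsBest B0 cap T x s p n) :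
    pot B0 cap T x = val B0 T x s p n := by
  refine IsGreatest.csSup_eq ⟨⟨s, p, n, h.1, rfl⟩, ?_⟩
  rintro r ⟨s', p', n', h', rfl⟩
  exact h.2 s' p' n' h'

lemma exists_best (B0 : ℕ) (cap : Bool) {T : ℝ} (hT : 0 < T) {x : Fin k → ℝ}
    (hx : ∀ i, 0 < x i) : ∃ s p n, IsBest B0 cap T x s p n := by
  obtain ⟨a, ha, b, hab, hxab⟩ : ∃ a, 0 < a ∧ ∃ b, a ≤ b ∧ ∀ i, a ≤ x i ∧ x i ≤ b := by
    have hsum : ∀ i, (x i)⁻¹ ≤ ∑ j, (x j)⁻¹ := fun i => Finset.single_le_sum
      (f := fun j => (x j)⁻¹) (fun j _ => (inv_pos.2 (hx j)).le) (Finset.mem_univ i)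
    have hsum' : ∀ i, x i ≤ ∑ j, x j := fun i => Finset.single_le_sum
      (f := x) (fun j _ => (hx j).le) (Finset.mem_univ i)
    have h0 : 0 ≤ ∑ j, (x j)⁻¹ := Finset.sum_nonneg fun j _ => (inv_pos.2 (hx j)).le
    have h0' : 0 ≤ ∑ j, x j := Finset.sum_nonneg fun j _ => (hx j).le
    refine ⟨((∑ j, (x j)⁻¹) + 1)⁻¹, by positivity, (∑ j, x j) + 1, ?_, fun i => ⟨?_, ?_⟩⟩
    · exact le_trans (inv_le_one_of_one_le₀ (by linarith)) (by linarith)
    · refine inv_le_of_inv_le₀ (hx i) ?_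
      linarith [hsum i]
    · linarith [hsum' i]
  obtain ⟨M, hM0, hM⟩ := coercive (k := k) B0 T T a b hT le_rfl ha hab
  obtain ⟨hHM, hM⟩ := hM T le_rfl le_rfl x hxab
  set C := feas k B0 cap ∩ ((Set.univ : Set (Pat k)) ×ˢ Set.pi Set.univ fun _ => Set.Icc (-(M / T)) (M / T)) with hC
  have hCc : IsCompact C :=
    (isCompact_univ.prod (isCompact_univ_pi fun _ => isCompact_Icc)).inter_left
      (feas_closed k B0 cap)
  have hHnn : 0 ≤ hmax k B0 T :=
    mul_nonneg hT.le (pow_nonneg (by linarith [one_le_kc k B0]) _)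
  have hc : Adm B0 cap T (id : Fin k → Fin k) (patConst k) (fun _ => -hmax k B0 T) :=
    adm_const hT.le (by rw [abs_neg]; exact le_abs_self _) (fun _ => by linarith)
  have hmem : ∀ s p n, Adm B0 cap T s p n → (∀ i, |n i| ≤ M) →
      ((s, p), fun i => n i / T) ∈ C ∧
        fval B0 (T, x) ((s, p), fun i => n i / T) = val B0 T x s p n := by
    intro s p n h hn
    refine ⟨⟨?_, ⟨trivial, fun i _ => ?_⟩⟩, ?_⟩
    · have := adm_smul (c := T⁻¹) (inv_nonneg.2 hT.le) h
      rw [inv_mul_cancel₀ hT.ne'] at this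
      simpa [feas, div_eq_inv_mul] using this
    · show n i / T ∈ _
      rw [Set.mem_Icc, ← abs_le, abs_div, abs_of_pos hT]
      exact div_le_div_of_nonneg_right (hn i) hT.le
    · unfold fval
      have : (fun i => T * (n i / T)) = n := funext fun i => mul_div_cancel₀ _ hT.ne'
      rw [this]
  have hc' := hmem _ _ _ hc (fun _ => by rw [abs_neg, abs_of_nonneg hHnn]; exact hHM)
  obtain ⟨q, hq, hqmax⟩ := hCc.exists_isMaxOn ⟨_, hc'.1⟩
    ((fval_continuous B0).comp (Continuous.prodMk_right (T, x))).continuousOn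
  refine ⟨q.1.1, q.1.2, fun i => T * q.2 i, ?_, ?_⟩
  · have := adm_smul (c := T) hT.le hq.1
    rwa [mul_one] at this
  · intro s' p' n' h'
    show _ ≤ fval B0 (T, x) q
    rcases le_or_gt (val B0 T x id (patConst k) fun _ => -hmax k B0 T) (val B0 T x s' p' n')
      with e | e
    · obtain ⟨hin, hv⟩ := hmem _ _ _ h' (hM s' p' n' h'.bij e)
      rw [← hv]; exact hqmax hin
    · refine le_trans e.le ?_
      rw [← hc'.2]; exact hqmax hc'.1

lemma le_pot {B0 : ℕ} {cap : Bool} {T : ℝ} (hT : 0 < T) {x : Fin k → ℝ} (hx : ∀ i, 0 < x i)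
    {s : Fin k → Fin k} {p : Fin k → Bool} {n : Fin k → ℝ} (h : Adm B0 cap T s p n) :
    val B0 T x s p n ≤ pot B0 cap T x := by
  obtain ⟨s0, p0, n0, hb⟩ := exists_best B0 cap hT hx
  rw [pot_eq hb]
  exact hb.2 s p n h

/-- The potential is jointly continuous in the scale and the point. -/
theorem pot_continuousOn (k B0 : ℕ) (cap : Bool) :
    ContinuousOn (fun w : ℝ × (Fin k → ℝ) => pot B0 cap w.1 w.2)
      {w | 0 < w.1 ∧ ∀ i, 0 < w.2 i} := by
  rintro ⟨T, x⟩ ⟨hT, hx⟩
  change 0 < T at hT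
  change ∀ i, 0 < x i at hx
  refine ContinuousAt.continuousWithinAt ?_
  have hopen : ∀ᶠ w : ℝ × (Fin k → ℝ) in 𝓝 (T, x),
      w.1 ∈ Set.Ioo (T / 2) (2 * T) ∧ ∀ i, w.2 i ∈ Set.Ioo (x i / 2) (2 * x i) := by
    refine Filter.Eventually.and (continuous_fst.continuousAt
      (Ioo_mem_nhds (show T / 2 < (T, x).1 by change T / 2 < T; linarith)
        (show (T, x).1 < 2 * T by change T < 2 * T; linarith)))
      (eventually_all.2 fun i => ?_)
    exact ((continuous_apply i).comp continuous_snd).continuousAt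
      (Ioo_mem_nhds (by have := hx i; dsimp; linarith) (by have := hx i; dsimp; linarith))
  obtain ⟨a, ha, b, hab, hxab⟩ : ∃ a, 0 < a ∧ ∃ b, a ≤ b ∧ ∀ i, a ≤ x i / 2 ∧ 2 * x i ≤ b := by
    have hsum : ∀ i, (x i)⁻¹ ≤ ∑ j, (x j)⁻¹ := fun i => Finset.single_le_sum
      (f := fun j => (x j)⁻¹) (fun j _ => (inv_pos.2 (hx j)).le) (Finset.mem_univ i)
    have hsum' : ∀ i, x i ≤ ∑ j, x j := fun i => Finset.single_le_sum
      (f := x) (fun j _ => (hx j).le) (Finset.mem_univ i)
    have h0 : 0 ≤ ∑ j, (x j)⁻¹ := Finset.sum_nonneg fun j _ => (inv_pos.2 (hx j)).le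
    have h0' : 0 ≤ ∑ j, x j := Finset.sum_nonneg fun j _ => (hx j).le
    refine ⟨(2 * ((∑ j, (x j)⁻¹) + 1))⁻¹, by positivity, 2 * ((∑ j, x j) + 1), ?_,
      fun i => ⟨?_, ?_⟩⟩
    · exact le_trans (inv_le_one_of_one_le₀ (by linarith)) (by linarith)
    · have hi := hx i
      refine inv_le_of_inv_le₀ (by linarith) ?_
      rw [inv_div, div_eq_mul_inv]
      linarith [hsum i]
    · linarith [hsum' i]
  obtain ⟨M, hM0, hM⟩ := coercive (k := k) B0 (T / 2) (2 * T) a b (by linarith) (by linarith) ha hab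
  set C := feas k B0 cap ∩
    ((Set.univ : Set (Pat k)) ×ˢ Set.pi Set.univ fun _ => Set.Icc (-(M / (T / 2))) (M / (T / 2))) with hC
  have hCc : IsCompact C :=
    (isCompact_univ.prod (isCompact_univ_pi fun _ => isCompact_Icc)).inter_left
      (feas_closed k B0 cap)
  refine ((hCc.continuous_sSup (fval_continuous B0)).continuousAt (x := (T, x))).congr ?_
  filter_upwards [hopen] with w hw
  obtain ⟨⟨hw1, hw2⟩, hw3⟩ := hw
  have hw0 : 0 < w.1 := by linarith
  have hwx : ∀ i, a ≤ w.2 i ∧ w.2 i ≤ b := fun i =>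
    ⟨by linarith [(hw3 i).1, (hxab i).1], by linarith [(hw3 i).2, (hxab i).2]⟩
  have hwpos : ∀ i, 0 < w.2 i := fun i => lt_of_lt_of_le ha (hwx i).1
  obtain ⟨s, p, n, hb⟩ := exists_best B0 cap hw0 hwpos
  obtain ⟨-, hbound⟩ := hM w.1 hw1.le hw2.le w.2 hwx
  have hHnn : 0 ≤ hmax k B0 w.1 :=
    mul_nonneg hw0.le (pow_nonneg (by linarith [one_le_kc k B0]) _)
  have hn := hbound s p n hb.1.bij (hb.2 _ _ _
    (adm_const hw0.le (by rw [abs_neg]; exact le_abs_self _) (fun _ => by linarith)))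
  have hmem : ((s, p), fun i => n i / w.1) ∈ C := by
    refine ⟨?_, ⟨trivial, fun i _ => ?_⟩⟩
    · have := adm_smul (c := w.1⁻¹) (inv_nonneg.2 hw0.le) hb.1
      rw [inv_mul_cancel₀ hw0.ne'] at this
      simpa [feas, div_eq_inv_mul] using this
    · show n i / w.1 ∈ _
      rw [Set.mem_Icc, ← abs_le, abs_div, abs_of_pos hw0]
      exact div_le_div₀ hM0 (hn i) (by linarith) hw1.le
  have hval : fval B0 w ((s, p), fun i => n i / w.1) = val B0 w.1 w.2 s p n := by
    unfold fval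
    have : (fun i => w.1 * (n i / w.1)) = n := funext fun i => mul_div_cancel₀ _ hw0.ne'
    rw [this]
  rw [pot_eq hb]
  refine IsGreatest.csSup_eq ⟨⟨_, hmem, hval⟩, ?_⟩
  rintro r ⟨q, hq, rfl⟩
  have := adm_smul (c := w.1) hw0.le hq.1
  rw [mul_one] at this
  exact hb.2 _ _ _ this

end Vale.Agent.P072
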